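import Vale.Agent.P139.H605.Inst

/-!
# P139, block N (helper605): from the linear inputs to `Step1`
-/

open Set MeasureTheory intervalIntegral Filter Topology

namespace Vale.Agent.P139.H605

open Vale.Agent.P139.A Vale.Agent.P139.A.WA Vale.Agent.P139.H203 Vale.Agent.P139.BU
  Vale.Agent.P139.N

variable {d : ℕ}

/-- size of the parameters of a mode -/
noncomputable def msz (α : ℝ) (β : Fin d → ℝ) (γ : ℝ) : ℝ := |α| + ∑ i, |β i| + |γ|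

theorem msz_nonneg (α : ℝ) (β : Fin d → ℝ) (γ : ℝ) : 0 ≤ msz α β γ := by
  unfold msz; positivity

/-- The linear flow of a mode. -/
noncomputable def modeFlow (m : ℕ) (w : ℝ) (Q : E d → ℂ) (α : ℝ) (β : Fin d → ℝ) (γ t : ℝ) :
    E d → ℂ :=
  modeOf m w Q α (fun i => Real.exp (t / 2) * β i) (Real.exp t * γ)

theorem modeFlow_zero (m : ℕ) (w : ℝ) (Q : E d → ℂ) (α : ℝ) (β : Fin d → ℝ) (γ : ℝ) :
    modeFlow m w Q α β γ 0 = modeOf m w Q α β γ := by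
  unfold modeFlow
  simp

/-- The cut-off profile solves the rescaled equation up to a small error (mild form). -/
def MildProfile (d m K : ℕ) (w : ℝ) (Q : E d → ℂ) : Prop :=
  ∀ A : ℝ, 0 < A → ∀ ε : ℝ, 0 < ε → ∃ ℓ₀ : ℝ, 0 < ℓ₀ ∧ ∀ ℓ : ℝ, 0 < ℓ → ℓ ≤ ℓ₀ →
    ∃ H : ℝ → WA d K, ContinuousOn H (Icc 0 A) ∧ ∀ t ∈ Icc (0 : ℝ) A,
      Up K Q (sc ℓ t) = Uf (aa m) w ℓ t 0 (Up K Q ℓ)
        + (∫ s in (0 : ℝ)..t, Uf (aa m) w ℓ t s ((-Complex.I) • F m (Up K Q (sc ℓ s)))) + H t ∧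
      Nn (sc ℓ t) K (H t) ≤ ε

/-- The cut-off modes solve the linearised rescaled equation up to a small error. -/
def MildModes (d m K : ℕ) (w : ℝ) (Q : E d → ℂ) : Prop :=
  ∀ A : ℝ, 0 < A → ∀ ε : ℝ, 0 < ε → ∃ ℓ₀ : ℝ, 0 < ℓ₀ ∧ ∀ ℓ : ℝ, 0 < ℓ → ℓ ≤ ℓ₀ →
    ∀ (α : ℝ) (β : Fin d → ℝ) (γ : ℝ),
    ∃ H : ℝ → WA d K, ContinuousOn H (Icc 0 A) ∧
      ContinuousOn (fun t : ℝ => (Up K (modeFlow m w Q α β γ t) (sc ℓ t) : WA d K)) (Icc 0 A) ∧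
      ∀ t ∈ Icc (0 : ℝ) A,
      Up K (modeFlow m w Q α β γ t) (sc ℓ t) = Uf (aa m) w ℓ t 0 (Up K (modeOf m w Q α β γ) ℓ)
        + (∫ s in (0 : ℝ)..t, Uf (aa m) w ℓ t s
            (BW m (Up K Q (sc ℓ s)) (Up K (modeFlow m w Q α β γ s) (sc ℓ s)))) + H t ∧
      Nn (sc ℓ t) K (H t) ≤ ε * msz α β γ

/-- Linearity and boundedness of the cut-off modes. -/
structure ModeUp (d m K : ℕ) (w : ℝ) (Q : E d → ℂ) (C : ℝ) : Prop where
  le : ∀ (ℓ : ℝ), 0 < ℓ → ℓ ≤ 1 → ∀ (α : ℝ) (β : Fin d → ℝ) (γ : ℝ),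
    Nn ℓ K (Up K (modeOf m w Q α β γ) ℓ) ≤ C * msz α β γ
  add : ∀ (ℓ : ℝ), 0 < ℓ → ℓ ≤ 1 → ∀ (α : ℝ) (β : Fin d → ℝ) (γ : ℝ),
    (Up K (fun y => Q y + modeOf m w Q α β γ y) ℓ : WA d K)
      = Up K Q ℓ + Up K (modeOf m w Q α β γ) ℓ

/-- The projection of a restriction is a real mode, and its flow is the restriction of the mode
flow. -/
def ModeMatch {d m j : ℕ} {w : ℝ} {Q : E d → ℂ} {X : Type*} [NormedAddCommGroup X]
    [NormedSpace ℝ X] (D : TData d m j w Q X) : Prop :=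
  ∀ A : ℝ, 0 < A → ∀ ε : ℝ, 0 < ε → ∃ ℓ₀ : ℝ, 0 < ℓ₀ ∧ ∀ ℓ : ℝ, 0 < ℓ → ℓ ≤ ℓ₀ →
    ∀ v : WA d (j + 1), ∃ (α : ℝ) (β : Fin d → ℝ) (γ : ℝ),
      msz α β γ ≤ D.CM * ‖D.P (D.R ℓ v)‖ ∧ ∀ t ∈ Icc (0 : ℝ) A,
        Nn (sc ℓ t) j (dn (Nat.le_succ j) (Up (j + 1) (modeFlow m w Q α β γ t) (sc ℓ t))
          - D.Ex (sc ℓ t) (D.S t (D.P (D.R ℓ v)))) ≤ ε * ‖D.P (D.R ℓ v)‖

theorem cTwo_pos {κ κ' A : ℝ} (hκ : 1 ≤ κ) (hκ' : 0 ≤ κ') (hA : 0 ≤ A) : 0 < cTwo κ κ' A := by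
  have h0 : 0 < κ := by linarith
  have h1 : 0 ≤ cY κ A := by unfold cY; positivity
  have h2 : 0 ≤ cD κ A := by unfold cD; positivity
  have h3 : 0 ≤ cF κ A := by unfold cF; positivity
  have h4 : 0 < cG κ κ' := by unfold cG; positivity
  have h5 : 0 < cL κ κ' A := by unfold cL; positivity
  have h6 : 0 < cP κ κ' A := by unfold cP; positivity
  unfold cTwo
  positivity

theorem cOne_pos {κ : ℝ} (hκ : 1 ≤ κ) : 0 < cOne κ := by
  have h0 : 0 < κ := by linarith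
  unfold cOne
  positivity

variable {m j : ℕ} {w : ℝ} {Q : E d → ℂ} {X : Type*} [NormedAddCommGroup X] [NormedSpace ℝ X]

/-- The bootstrap: the perturbation stays of size `O(η)` on `[0,A]`. -/
theorem bootstrap (hm : 1 ≤ m) (D : TData d m j w Q X) {A : ℝ} (hA : 0 < A) {ℓ η : ℝ}
    (hℓ : 0 < ℓ) (hℓ1 : ℓ ≤ 1) (hη : 0 < η)
    (hsmall : 2 * (4 * Real.exp (2 * (D.K1 + 1) * A) * η) ≤ 1)
    (hsmall2 : CR m * (D.K1 + 1) ^ (2 * m + 1) *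
      (2 * (4 * Real.exp (2 * (D.K1 + 1) * A) * η)) ≤ 1)
    {h H : ℝ → WA d (j + 1)} (hc : ContinuousOn h (Icc 0 A)) (hHη : ∀ t ∈ Icc (0 : ℝ) A,
      Nn (sc ℓ t) (j + 1) (H t) ≤ η)
    (h0 : Nn ℓ (j + 1) (h 0) ≤ η)
    (hmild : ∀ t ∈ Icc (0 : ℝ) A, h t = Uf (aa m) w ℓ t 0 (h 0)
      + (∫ s in (0 : ℝ)..t, Uf (aa m) w ℓ t s
        (BW m (Up (j + 1) Q (sc ℓ s)) (h s) + RW m (Up (j + 1) Q (sc ℓ s)) (h s))) + H t) :
    ∀ t ∈ Icc (0 : ℝ) A, Nn (sc ℓ t) (j + 1) (h t)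
      ≤ 4 * Real.exp (2 * (D.K1 + 1) * A) * η := by
  set κ := D.K1 with hκ
  have hκ1 : 1 ≤ κ := D.one_le_K1
  set L := κ + 1 with hL
  have hL0 : 0 < L := by linarith
  set ρ := 4 * Real.exp (2 * L * A) * η with hρ
  have hscl : ∀ t ∈ Icc (0 : ℝ) A, 0 < sc ℓ t ∧ sc ℓ t ≤ 1 := fun t ht => TData.scl hℓ hℓ1 ht.1
  have hsc : ContinuousOn (fun t => sc ℓ t) (Icc 0 A) := by unfold sc; fun_prop
  have hWc : ContinuousOn (fun t => (Up (j + 1) Q (sc ℓ t) : WA d (j + 1))) (Icc 0 A) :=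
    D.W_cont.comp hsc fun t ht => hscl t ht
  have hy : ContinuousOn (fun t => Nn (sc ℓ t) (j + 1) (h t)) (Icc 0 A) :=
    continuousOn_Nn le_rfl hsc (fun t ht => ⟨(hscl t ht).1.le, (hscl t ht).2⟩) hc
  have hmain := boot (A := A) (L := L) (c := 2 * η) (ρ := 2 * ρ) hA.le hL0 (by linarith) hy ?_ ?_ ?_
  · intro t ht
    refine (hmain t ht).trans ?_
    have : Real.exp (2 * L * t) ≤ Real.exp (2 * L * A) := by
      apply Real.exp_le_exp.2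
      have := ht.2
      gcongr
    rw [hρ]
    nlinarith
  · simp only [sc_zero]
    have : 1 ≤ Real.exp (2 * L * A) := Real.one_le_exp (by positivity)
    rw [hρ]
    nlinarith
  · have : 1 ≤ Real.exp (2 * L * A) := Real.one_le_exp (by positivity)
    rw [hρ]
    nlinarith [mul_pos (Real.exp_pos (2 * L * A)) hη]
  · intro t ht hs
    have hsub : Icc (0 : ℝ) t ⊆ Icc 0 A := Icc_subset_Icc le_rfl ht.2
    obtain ⟨t0, t1⟩ := hscl t ht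
    have hfc : ContinuousOn (fun s => Uf (aa m) w ℓ t s
        (BW m (Up (j + 1) Q (sc ℓ s)) (h s) + RW m (Up (j + 1) Q (sc ℓ s)) (h s))) (Icc 0 t) :=
      continuousOn_Uf (aa m) w ℓ continuousOn_const continuousOn_id
        ((continuousOn_BW (hWc.mono hsub) (hc.mono hsub)).add
          (continuousOn_RW (hWc.mono hsub) (hc.mono hsub)))
    have e1 : Nn (sc ℓ t) (j + 1) (∫ s in (0 : ℝ)..t, Uf (aa m) w ℓ t s
        (BW m (Up (j + 1) Q (sc ℓ s)) (h s) + RW m (Up (j + 1) Q (sc ℓ s)) (h s)))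
        ≤ ∫ s in (0 : ℝ)..t, L * Nn (sc ℓ s) (j + 1) (h s) := by
      refine Nn_integral_le t0.le t1 le_rfl ht.1 hfc ?_ ?_
      · apply ContinuousOn.intervalIntegrable
        rw [uIcc_of_le ht.1]
        exact continuousOn_const.mul (hy.mono hsub)
      · intro s hs'
        have hsA := hsub hs'
        obtain ⟨s0, s1⟩ := hscl s hsA
        have hyn := Nn_nonneg s0.le (j + 1) (h s)
        have hyρ : Nn (sc ℓ s) (j + 1) (h s) ≤ 2 * ρ := hs s hs'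
        have hWs := D.W_le _ s0 s1
        have hWn := Nn_nonneg s0.le (j + 1) (Up (j + 1) Q (sc ℓ s) : WA d (j + 1))
        refine (Nn_Uf_le hℓ.le hℓ1 le_rfl hs'.1 hs'.2 _).trans ?_
        have f1 : Real.exp (-(aa m * (t - s))) ≤ 1 := by
          apply Real.exp_le_one_iff.2
          have := mul_nonneg (aa_pos hm).le (sub_nonneg.2 hs'.2)
          linarith
        have f2 := Nn_add_le s0.le s1 le_rfl (BW m (Up (j + 1) Q (sc ℓ s)) (h s))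
          (RW m (Up (j + 1) Q (sc ℓ s)) (h s))
        have f3 : Nn (sc ℓ s) (j + 1) (BW m (Up (j + 1) Q (sc ℓ s)) (h s))
            ≤ κ * Nn (sc ℓ s) (j + 1) (h s) := by
          refine (Nn_BW_le s0.le s1 le_rfl hm _ _).trans ?_
          refine mul_le_mul_of_nonneg_right ?_ hyn
          refine le_trans ?_ D.K1_parts.2.2.1
          gcongr
        have f4 : Nn (sc ℓ s) (j + 1) (RW m (Up (j + 1) Q (sc ℓ s)) (h s))
            ≤ Nn (sc ℓ s) (j + 1) (h s) := by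
          have g1 : Nn (sc ℓ s) (j + 1) (Up (j + 1) Q (sc ℓ s) : WA d (j + 1))
              + Nn (sc ℓ s) (j + 1) (h s) ≤ L := by
            have := D.K1_parts.1
            linarith
          refine (Nn_RW_le s0.le s1 le_rfl (by linarith) g1).trans ?_
          have g2 := CR_nonneg m
          have g3 : CR m * L ^ (2 * m + 1) * Nn (sc ℓ s) (j + 1) (h s)
              ≤ CR m * L ^ (2 * m + 1) * (2 * ρ) := by gcongr
          have g4 : CR m * L ^ (2 * m + 1) * Nn (sc ℓ s) (j + 1) (h s) ≤ 1 := g3.trans hsmall2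
          calc CR m * L ^ (2 * m + 1) * Nn (sc ℓ s) (j + 1) (h s) ^ 2
              = (CR m * L ^ (2 * m + 1) * Nn (sc ℓ s) (j + 1) (h s))
                * Nn (sc ℓ s) (j + 1) (h s) := by ring
            _ ≤ 1 * Nn (sc ℓ s) (j + 1) (h s) := by gcongr
            _ = _ := one_mul _
        have f5 := Nn_nonneg s0.le (j + 1) (BW m (Up (j + 1) Q (sc ℓ s)) (h s)
          + RW m (Up (j + 1) Q (sc ℓ s)) (h s))
        calc Real.exp (-(aa m * (t - s))) * Nn (sc ℓ s) (j + 1)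
              (BW m (Up (j + 1) Q (sc ℓ s)) (h s) + RW m (Up (j + 1) Q (sc ℓ s)) (h s))
            ≤ 1 * Nn (sc ℓ s) (j + 1)
              (BW m (Up (j + 1) Q (sc ℓ s)) (h s) + RW m (Up (j + 1) Q (sc ℓ s)) (h s)) := by
              gcongr
          _ ≤ κ * Nn (sc ℓ s) (j + 1) (h s) + Nn (sc ℓ s) (j + 1) (h s) := by linarith
          _ = L * Nn (sc ℓ s) (j + 1) (h s) := by rw [hL]; ring
    have e2 : Nn (sc ℓ t) (j + 1) (Uf (aa m) w ℓ t 0 (h 0)) ≤ η := by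
      refine (Nn_Uf_le hℓ.le hℓ1 le_rfl le_rfl ht.1 _).trans ?_
      rw [sc_zero]
      have f1 : Real.exp (-(aa m * (t - 0))) ≤ 1 := by
        apply Real.exp_le_one_iff.2
        have := mul_nonneg (aa_pos hm).le ht.1
        linarith
      have f2 := Nn_nonneg hℓ.le (j + 1) (h 0)
      nlinarith
    have e3 := hHη t ht
    conv_lhs => rw [hmild t ht]
    refine (Nn_add_le t0.le t1 le_rfl _ _).trans ?_
    have e4 := Nn_add_le t0.le t1 le_rfl (Uf (aa m) w ℓ t 0 (h 0))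
      (∫ s in (0 : ℝ)..t, Uf (aa m) w ℓ t s
        (BW m (Up (j + 1) Q (sc ℓ s)) (h s) + RW m (Up (j + 1) Q (sc ℓ s)) (h s)))
    linarith

/-- The mild equation of the perturbation. -/
theorem mild_pert {A : ℝ} {ℓ : ℝ} {v H W : ℝ → WA d (j + 1)}
    (hWc : ContinuousOn W (Icc 0 A)) (hv : RCurve m w ℓ A v)
    (hW : ∀ t ∈ Icc (0 : ℝ) A, W t = Uf (aa m) w ℓ t 0 (W 0)
        + (∫ s in (0 : ℝ)..t, Uf (aa m) w ℓ t s ((-Complex.I) • F m (W s))) + H t) :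
    ∀ t ∈ Icc (0 : ℝ) A, v t - W t = Uf (aa m) w ℓ t 0 (v 0 - W 0)
      + (∫ s in (0 : ℝ)..t, Uf (aa m) w ℓ t s
        (BW m (W s) (v s - W s) + RW m (W s) (v s - W s))) + (-H t) := by
  intro t ht
  have hsub : Icc (0 : ℝ) t ⊆ Icc 0 A := Icc_subset_Icc le_rfl ht.2
  have c1 : ContinuousOn (fun s => Uf (aa m) w ℓ t s ((-Complex.I) • F m (v s))) (uIcc 0 t) := by
    rw [uIcc_of_le ht.1]
    exact continuousOn_Uf (aa m) w ℓ continuousOn_const continuousOn_id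
      ((continuousOn_F (hv.cont.mono hsub)).const_smul (-Complex.I))
  have c2 : ContinuousOn (fun s => Uf (aa m) w ℓ t s ((-Complex.I) • F m (W s))) (uIcc 0 t) := by
    rw [uIcc_of_le ht.1]
    exact continuousOn_Uf (aa m) w ℓ continuousOn_const continuousOn_id
      ((continuousOn_F (hWc.mono hsub)).const_smul (-Complex.I))
  have e1 : (∫ s in (0 : ℝ)..t, Uf (aa m) w ℓ t s
        (BW m (W s) (v s - W s) + RW m (W s) (v s - W s)))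
      = (∫ s in (0 : ℝ)..t, Uf (aa m) w ℓ t s ((-Complex.I) • F m (v s)))
        - ∫ s in (0 : ℝ)..t, Uf (aa m) w ℓ t s ((-Complex.I) • F m (W s)) := by
    rw [← intervalIntegral.integral_sub c1.intervalIntegrable c2.intervalIntegrable]
    congr 1
    ext1 s
    rw [← map_sub]
    congr 1
    have := F_expand m (W s) (v s - W s)
    rw [add_sub_cancel] at this
    rw [this]
    abel
  rw [e1, hv.mild t ht, hW t ht, map_sub]
  abel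

/-- The abstract estimate applied to the torus operators. -/
theorem step_apply [CompleteSpace X] (hm : 1 ≤ m) (D : TData d m j w Q X)
    (hβ : 2 + 2 * D.β ≤ TData.cc m j) {A ℓ μ0 η : ℝ} (hA : 0 < A) (hℓ : 0 < ℓ) (b1 : ℓ ≤ 1)
    (hμ00 : 0 < μ0) (hμ01 : μ0 ≤ 1) (hη : 0 < η)
    (hθ : ∀ s ∈ Icc (0 : ℝ) A, D.θ (sc ℓ s) ≤ μ0) {h H E HE G : ℝ → WA d (j + 1)}
    (hhc : ContinuousOn h (Icc 0 A)) (hHc : ContinuousOn H (Icc 0 A))
    (hEc : ContinuousOn E (Icc 0 A)) (hHEc : ContinuousOn HE (Icc 0 A))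
    (hGc : ContinuousOn G (Icc 0 A))
    (hmild : ∀ t ∈ Icc (0 : ℝ) A, h t = Uf (aa m) w ℓ t 0 (h 0)
      + (∫ s in (0 : ℝ)..t, Uf (aa m) w ℓ t s (BW m (Up (j + 1) Q (sc ℓ s)) (h s) + G s)) + H t)
    (hEmild : ∀ t ∈ Icc (0 : ℝ) A, E t = Uf (aa m) w ℓ t 0 (E 0)
      + (∫ s in (0 : ℝ)..t, Uf (aa m) w ℓ t s (BW m (Up (j + 1) Q (sc ℓ s)) (E s))) + HE t)
    (hGle : ∀ s ∈ Icc (0 : ℝ) A, Nn (sc ℓ s) (j + 1) (G s) ≤ μ0 * η)
    (hHle : ∀ s ∈ Icc (0 : ℝ) A, Nn (sc ℓ s) (j + 1) (H s) ≤ μ0 * η)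
    (hmatch : ∀ t ∈ Icc (0 : ℝ) A, Nn (sc ℓ t) j (dn (Nat.le_succ j) (E t)
          - D.Ex (sc ℓ t) (D.S t (D.P (D.R ℓ (h 0))))) ≤ μ0 * ‖D.P (D.R ℓ (h 0))‖)
    (hE0 : Nn ℓ (j + 1) (E 0) ≤ D.K1 * ‖D.P (D.R ℓ (h 0))‖)
    (hHE : ∀ s ∈ Icc (0 : ℝ) A, Nn (sc ℓ s) (j + 1) (HE s) ≤ μ0 * ‖D.P (D.R ℓ (h 0))‖) :
    Nn (sc ℓ A) (j + 1) (h A - E A)
      ≤ cOne D.K1 * Real.exp (-D.δ' * A) * Nn ℓ (j + 1) (h 0)
        + cTwo D.K1 1 A * (μ0 * Nn ℓ (j + 1) (h 0) + μ0 * η) := by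
  have hκ1 : 1 ≤ D.K1 := D.one_le_K1
  have hδ := D.δ'_pos hm
  have hδ1 : D.δ' ≤ 1 := (min_le_right _ _).trans (min_le_right _ _)
  have hβ0 := D.β_nonneg
  have hscl : ∀ t ∈ Icc (0 : ℝ) A, 0 < sc ℓ t ∧ sc ℓ t ≤ 1 := fun t ht => TData.scl hℓ b1 ht.1
  have hsc : ContinuousOn (fun t => sc ℓ t) (Icc 0 A) := by unfold sc; fun_prop
  have h0A : (0 : ℝ) ∈ Icc (0 : ℝ) A := ⟨le_rfl, hA.le⟩
  have hAA : A ∈ Icc (0 : ℝ) A := ⟨hA.le, le_rfl⟩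
  have hWc : ContinuousOn (fun t => (Up (j + 1) Q (sc ℓ t) : WA d (j + 1))) (Icc 0 A) :=
    D.W_cont.comp hsc fun t ht => hscl t ht
  set O := D.ops hm hℓ b1 hθ with hO
  have hJ : ∀ t ∈ Icc (0 : ℝ) A, ∀ x, ‖O.J t x‖ = Nn (sc ℓ t) (j + 1) x := fun t ht x =>
    norm_Jw (hscl t ht).1.le (hscl t ht).2 le_rfl x
  have hJ' : ∀ t ∈ Icc (0 : ℝ) A, ∀ x, ‖O.J' t x‖ = Nn (sc ℓ t) j x := fun t ht x =>
    norm_Jw (hscl t ht).1.le (hscl t ht).2 le_rfl x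
  have hR0 : O.R 0 (h 0) = D.R ℓ (h 0) := by
    show D.R (sc ℓ 0) (h 0) = _
    rw [sc_zero]
  have hstep := O.one_step (θ := μ0) (γ := μ0 * η) (κ' := 1) (ε := h) (G := G)
    (H := H) (E := E) (HE := HE) hA.le hκ1 hμ00.le hμ01 hδ.le
    (by linarith) hβ0 (by linarith) (by positivity) zero_le_one hhc hHc hEc hHEc hmild
    (fun t ht => by
      apply ContinuousOn.intervalIntegrable
      rw [uIcc_of_le ht.1]
      have hsub : Icc (0 : ℝ) t ⊆ Icc 0 A := Icc_subset_Icc le_rfl ht.2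
      exact continuousOn_Uf (aa m) w ℓ continuousOn_const continuousOn_id
        ((continuousOn_BW (hWc.mono hsub) (hhc.mono hsub)).add (hGc.mono hsub)))
    (fun s hs => by rw [hJ s hs]; exact hGle s hs)
    (fun s hs => by rw [hJ s hs]; exact hHle s hs)
    (fun t ht => by
      rw [hJ' t ht, hR0, one_mul]
      exact hmatch t ht)
    hEmild
    (fun t ht => by
      apply ContinuousOn.intervalIntegrable
      rw [uIcc_of_le ht.1]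
      have hsub : Icc (0 : ℝ) t ⊆ Icc 0 A := Icc_subset_Icc le_rfl ht.2
      exact continuousOn_Uf (aa m) w ℓ continuousOn_const continuousOn_id
        (continuousOn_BW (hWc.mono hsub) (hEc.mono hsub)))
    (by
      rw [hJ 0 h0A, hR0, sc_zero]
      exact hE0)
    (fun s hs => by
      rw [hJ s hs, hR0, one_mul]
      exact hHE s hs)
  rw [hJ A hAA, hJ 0 h0A, sc_zero] at hstep
  exact hstep

/-- The choice of the constants. -/
theorem constants {CY CG c2 ε : ℝ} (hCY0 : 0 < CY) (hCG0 : 0 ≤ CG) (hc20 : 0 < c2) (hε : 0 < ε) :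
    ∃ μ0 : ℝ, 0 < μ0 ∧ μ0 ≤ 1 ∧ c2 * μ0 ≤ ε / 2 ∧ ∃ ηA : ℝ, 0 < ηA ∧ ∀ η : ℝ, 0 < η → η ≤ ηA →
      2 * (CY * η) ≤ 1 ∧ CG * (2 * (CY * η)) ≤ 1 ∧ CG * (CY * η) ^ 2 ≤ μ0 * η := by
  refine ⟨min 1 (ε / (2 * c2)), lt_min one_pos (by positivity), min_le_left _ _, ?_, ?_⟩
  · have : min 1 (ε / (2 * c2)) ≤ ε / (2 * c2) := min_le_right _ _
    calc c2 * min 1 (ε / (2 * c2)) ≤ c2 * (ε / (2 * c2)) := by gcongr
      _ = ε / 2 := by field_simp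
  set μ0 := min 1 (ε / (2 * c2)) with hμ0
  have hμ00 : 0 < μ0 := lt_min one_pos (by positivity)
  refine ⟨min (1 / (2 * CY)) (min (1 / (2 * CY * (CG + 1))) (μ0 / ((CG + 1) * CY ^ 2))),
    lt_min (by positivity) (lt_min (by positivity) (by positivity)), fun η hη hηle => ⟨?_, ?_, ?_⟩⟩
  · have : η ≤ 1 / (2 * CY) := hηle.trans (min_le_left _ _)
    rw [le_div_iff₀ (by positivity)] at this
    linarith
  · have : η ≤ 1 / (2 * CY * (CG + 1)) := hηle.trans ((min_le_right _ _).trans (min_le_left _ _))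
    rw [le_div_iff₀ (by positivity)] at this
    have h3 : 0 < 2 * (CY * η) := by positivity
    nlinarith
  · have : η ≤ μ0 / ((CG + 1) * CY ^ 2) :=
      hηle.trans ((min_le_right _ _).trans (min_le_right _ _))
    rw [le_div_iff₀ (by positivity)] at this
    have h3 : (CG + 1) * (CY * η) ^ 2 ≤ μ0 * η := by
      calc (CG + 1) * (CY * η) ^ 2 = (η * ((CG + 1) * CY ^ 2)) * η := by ring
        _ ≤ μ0 * η := by gcongr
    nlinarith [sq_nonneg (CY * η)]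

/-- The quadratic term is small. -/
theorem quad_small (D : TData d m j w Q X) {ℓ μ0 η CY : ℝ} (s0 : 0 < ℓ) (s1 : ℓ ≤ 1)
    (a1 : 2 * (CY * η) ≤ 1)
    (a3 : CR m * (D.K1 + 1) ^ (2 * m + 1) * (CY * η) ^ 2 ≤ μ0 * η) {h : WA d (j + 1)}
    (g0 : Nn ℓ (j + 1) h ≤ CY * η) :
    Nn ℓ (j + 1) (RW m (Up (j + 1) Q ℓ) h) ≤ μ0 * η := by
  have hκ1 : 1 ≤ D.K1 := D.one_le_K1
  have g1 : Nn ℓ (j + 1) (Up (j + 1) Q ℓ : WA d (j + 1)) + Nn ℓ (j + 1) h ≤ D.K1 + 1 := by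
    have := D.K1_parts.1
    have h2 := D.W_le _ s0 s1
    have h3 : CY * η ≤ 1 := by linarith
    linarith
  refine (Nn_RW_le s0.le s1 le_rfl (by linarith) g1).trans ?_
  have g2 := Nn_nonneg s0.le (j + 1) h
  have g4 := CR_nonneg m
  have g3 : CR m * (D.K1 + 1) ^ (2 * m + 1) * Nn ℓ (j + 1) h ^ 2
      ≤ CR m * (D.K1 + 1) ^ (2 * m + 1) * (CY * η) ^ 2 := by gcongr
  exact g3.trans a3

/-- The size of the parameters of the mode. -/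
theorem size_modes (D : TData d m j w Q X) {A ℓ η : ℝ} (hA : 0 < A) (hℓ : 0 < ℓ) (b1 : ℓ ≤ 1)
    {h0 : WA d (j + 1)} (hh0 : Nn ℓ (j + 1) h0 ≤ η) {α : ℝ} {β : Fin d → ℝ} {γ : ℝ}
    (hsz : msz α β γ ≤ D.CM * ‖D.P (D.R ℓ h0)‖) :
    |α| + ∑ i, |Real.exp (A / 2) * β i| + |Real.exp A * γ|
      ≤ (Real.exp A * (D.CM * (D.K1 * D.K1)) + 1) * η := by
  have hκ1 : 1 ≤ D.K1 := D.one_le_K1
  have hκ0 : 0 ≤ D.K1 := by linarith
  have hCM := D.CM_nonneg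
  have hη : 0 ≤ η := (Nn_nonneg hℓ.le _ _).trans hh0
  have e0 : ‖D.P (D.R ℓ h0)‖ ≤ D.K1 * (D.K1 * η) := by
    have f1 : ‖D.P (D.R ℓ h0)‖ ≤ ‖D.P‖ * ‖D.R ℓ h0‖ := D.P.le_opNorm _
    have f2 := D.K1_parts.2.2.2.2.2.2.1
    have f3 : ‖D.R ℓ h0‖ ≤ D.K1 * η := by
      refine (D.R_le ℓ hℓ b1 _).trans ?_
      have := D.K1_parts.1
      have h5 := Nn_nonneg hℓ.le (j + 1) h0
      gcongr
    calc ‖D.P (D.R ℓ h0)‖ ≤ ‖D.P‖ * ‖D.R ℓ h0‖ := f1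
      _ ≤ D.K1 * (D.K1 * η) := by gcongr
  have e1 : 1 ≤ Real.exp (A / 2) := Real.one_le_exp (by positivity)
  have e2 : Real.exp (A / 2) ≤ Real.exp A := Real.exp_le_exp.2 (by linarith)
  have e3 : 1 ≤ Real.exp A := e1.trans e2
  have e4 : |α| + ∑ i, |Real.exp (A / 2) * β i| + |Real.exp A * γ|
      ≤ Real.exp A * msz α β γ := by
    unfold msz
    rw [mul_add, mul_add]
    refine add_le_add (add_le_add ?_ ?_) ?_
    · nlinarith [abs_nonneg α]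
    · rw [Finset.mul_sum]
      refine Finset.sum_le_sum fun i _ => ?_
      rw [abs_mul, abs_of_pos (Real.exp_pos _)]
      gcongr
    · rw [abs_mul, abs_of_pos (Real.exp_pos _)]
  refine e4.trans ?_
  calc Real.exp A * msz α β γ ≤ Real.exp A * (D.CM * ‖D.P (D.R ℓ h0)‖) := by gcongr
    _ ≤ Real.exp A * (D.CM * (D.K1 * (D.K1 * η))) := by gcongr
    _ = (Real.exp A * (D.CM * (D.K1 * D.K1))) * η := by ring
    _ ≤ _ := by rw [add_mul, one_mul]; linarith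

/-- THE ONE STEP THEOREM. -/
theorem step1_of_tdata [CompleteSpace X] (hm : 1 ≤ m) (D : TData d m j w Q X)
    (hβ : 2 + 2 * D.β ≤ TData.cc m j) (hQ : MildProfile d m (j + 1) w Q)
    (hM : MildModes d m (j + 1) w Q) (hU : ModeUp d m (j + 1) w Q D.CM) (hMM : ModeMatch D) :
    Step1 d m w Q := by
  have hκ1 : 1 ≤ D.K1 := D.one_le_K1
  have hκ0 : 0 < D.K1 := by linarith
  have hδ := D.δ'_pos hm
  refine ⟨j + 1, cOne D.K1, D.δ', cOne_pos hκ1, hδ, fun A hA => ?_⟩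
  have hCM := D.CM_nonneg
  refine ⟨Real.exp A * (D.CM * (D.K1 * D.K1)) + 1, by positivity, fun ε hε => ?_⟩
  set c2 := cTwo D.K1 1 A with hc2
  have hc20 : 0 < c2 := cTwo_pos hκ1 zero_le_one hA.le
  set CY : ℝ := 4 * Real.exp (2 * (D.K1 + 1) * A) with hCY
  have hCY0 : 0 < CY := by positivity
  have hCG0 : 0 ≤ CR m * (D.K1 + 1) ^ (2 * m + 1) := by
    have := CR_nonneg m
    positivity
  obtain ⟨μ0, hμ00, hμ01, hμ0c, ηA, hηA0, hηA⟩ := constants hCY0 hCG0 hc20 hε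
  refine ⟨ηA, hηA0, fun η hη hηle => ?_⟩
  obtain ⟨a1, a2, a3⟩ := hηA η hη hηle
  -- small scales
  obtain ⟨ℓ1, hℓ1, hQ1⟩ := hQ A hA (μ0 * η) (by positivity)
  obtain ⟨ℓ2, hℓ2, hM2⟩ := hM A hA (μ0 / (D.CM + 1)) (by positivity)
  obtain ⟨ℓ3, hℓ3, hMM3⟩ := hMM A hA μ0 hμ00
  obtain ⟨ℓ4, hℓ4, hθ4⟩ : ∃ ℓ4 : ℝ, 0 < ℓ4 ∧ ∀ ℓ, 0 < ℓ → ℓ ≤ ℓ4 → D.θ ℓ ≤ μ0 := by
    have h1 := D.θ_lim.eventually (Iio_mem_nhds hμ00)
    rw [eventually_nhdsWithin_iff, Metric.eventually_nhds_iff] at h1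
    obtain ⟨r, hr, h2⟩ := h1
    refine ⟨r / 2, by positivity, fun ℓ h3 h4 => ?_⟩
    have h5 := h2 (y := ℓ) (by rw [Real.dist_eq, sub_zero, abs_of_pos h3]; linarith) h3
    exact le_of_lt h5
  refine ⟨min 1 (min ℓ1 (min ℓ2 (min ℓ3 ℓ4))), lt_min one_pos (lt_min hℓ1 (lt_min hℓ2
    (lt_min hℓ3 hℓ4))), min_le_left _ _, fun ℓ v hℓ hℓle hv hv0 => ?_⟩
  simp only [le_min_iff] at hℓle
  obtain ⟨b1, b2, b3, b4, b5⟩ := hℓle
  have hscl : ∀ t ∈ Icc (0 : ℝ) A, 0 < sc ℓ t ∧ sc ℓ t ≤ 1 := fun t ht => TData.scl hℓ b1 ht.1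
  have hsc : ContinuousOn (fun t => sc ℓ t) (Icc 0 A) := by unfold sc; fun_prop
  have h0A : (0 : ℝ) ∈ Icc (0 : ℝ) A := ⟨le_rfl, hA.le⟩
  have hAA : A ∈ Icc (0 : ℝ) A := ⟨hA.le, le_rfl⟩
  obtain ⟨W, hWdef⟩ : ∃ W : ℝ → WA d (j + 1), W = fun t => Up (j + 1) Q (sc ℓ t) := ⟨_, rfl⟩
  have hWt : ∀ t, W t = Up (j + 1) Q (sc ℓ t) := fun t => by rw [hWdef]
  have hW0 : W 0 = Up (j + 1) Q ℓ := by rw [hWt, sc_zero]
  have hWc : ContinuousOn W (Icc 0 A) := by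
    rw [hWdef]; exact D.W_cont.comp hsc fun t ht => hscl t ht
  obtain ⟨H, hHc, hH⟩ := hQ1 ℓ hℓ b2
  obtain ⟨h, hh⟩ : ∃ h : ℝ → WA d (j + 1), h = fun t => v t - W t := ⟨_, rfl⟩
  have hht : ∀ t, h t = v t - W t := fun t => by rw [hh]
  have hhc : ContinuousOn h (Icc 0 A) := by rw [hh]; exact hv.cont.sub hWc
  have hmild : ∀ t ∈ Icc (0 : ℝ) A, h t = Uf (aa m) w ℓ t 0 (h 0)
      + (∫ s in (0 : ℝ)..t, Uf (aa m) w ℓ t s
        (BW m (Up (j + 1) Q (sc ℓ s)) (h s) + RW m (Up (j + 1) Q (sc ℓ s)) (h s)))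
      + (-H t) := by
    have h1 := mild_pert (m := m) (w := w) (H := H) hWc hv fun t ht => by
      rw [hW0, hWt t]
      simp only [hWt]
      exact (hH t ht).1
    intro t ht
    have h2 := h1 t ht
    simp only [hht]
    simp only [hWt] at h2 ⊢
    exact h2
  have hHle : ∀ t ∈ Icc (0 : ℝ) A, Nn (sc ℓ t) (j + 1) (-H t) ≤ μ0 * η := fun t ht => by
    rw [Nn_neg]; exact (hH t ht).2
  have hh0 : Nn ℓ (j + 1) (h 0) ≤ η := by
    rw [hht, hW0]; exact hv0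
  have hμη : μ0 * η ≤ η := by nlinarith
  have hboot := bootstrap hm D hA hℓ b1 hη a1 a2 hhc (fun t ht => (hHle t ht).trans hμη) hh0 hmild
  have hθ : ∀ s ∈ Icc (0 : ℝ) A, D.θ (sc ℓ s) ≤ μ0 := fun s hs =>
    hθ4 _ (hscl s hs).1 ((sc_le_self hℓ.le hs.1).trans b5)
  obtain ⟨α, β, γ, hsz, hmatch⟩ := hMM3 ℓ hℓ b4 (h 0)
  obtain ⟨HE, hHEc, hEc, hE⟩ := hM2 ℓ hℓ b3 α β γ
  obtain ⟨pz, hpz⟩ : ∃ pz : ℝ, pz = ‖D.P (D.R ℓ (h 0))‖ := ⟨_, rfl⟩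
  have hpz0 : 0 ≤ pz := by rw [hpz]; exact norm_nonneg _
  have hE0 : (Up (j + 1) (modeFlow m w Q α β γ 0) (sc ℓ 0) : WA d (j + 1))
      = Up (j + 1) (modeOf m w Q α β γ) ℓ := by
    simp only [sc_zero, modeFlow_zero]
  have hstep := step_apply hm D hβ hA hℓ b1 hμ00 hμ01 hη hθ
    (E := fun t => Up (j + 1) (modeFlow m w Q α β γ t) (sc ℓ t)) (HE := HE)
    (G := fun s => RW m (Up (j + 1) Q (sc ℓ s)) (h s)) (H := fun t => -H t) hhc hHc.neg hEc hHEc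
    (by
      rw [hWdef] at hWc
      exact continuousOn_RW hWc hhc)
    hmild
    (fun t ht => by
      simp only [hE0]
      exact (hE t ht).1)
    (fun s hs => quad_small D (hscl s hs).1 (hscl s hs).2 a1 a3 (hboot s hs))
    hHle hmatch
    (by
      simp only [hE0]
      refine (hU.le ℓ hℓ b1 α β γ).trans ?_
      rw [← hpz] at hsz ⊢
      calc D.CM * msz α β γ ≤ D.CM * (D.CM * pz) := by gcongr
        _ = D.CM ^ 2 * pz := by ring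
        _ ≤ D.K1 * pz := by
          have := D.K1_parts.2.2.2.2.2.2.2
          gcongr)
    (fun s hs => by
      refine (hE s hs).2.trans ?_
      rw [← hpz] at hsz ⊢
      have h1 : μ0 / (D.CM + 1) * msz α β γ ≤ μ0 / (D.CM + 1) * (D.CM * pz) := by gcongr
      refine h1.trans ?_
      have h2 : μ0 / (D.CM + 1) * (D.CM * pz) = (μ0 * pz) * (D.CM / (D.CM + 1)) := by
        field_simp
      have h3 : D.CM / (D.CM + 1) ≤ 1 := by
        rw [div_le_one (by positivity)]; linarith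
      rw [h2]
      calc (μ0 * pz) * (D.CM / (D.CM + 1)) ≤ (μ0 * pz) * 1 := by gcongr
        _ = μ0 * pz := mul_one _)
  refine ⟨α, fun i => Real.exp (A / 2) * β i, Real.exp A * γ,
    size_modes D hA hℓ b1 hh0 hsz, ?_⟩
  have hscA : ℓ * Real.exp (-A / 2) = sc ℓ A := rfl
  rw [hscA, hU.add _ (hscl A hAA).1 (hscl A hAA).2]
  have e1 : v A - (Up (j + 1) Q (sc ℓ A) + Up (j + 1) (modeOf m w Q α
      (fun i => Real.exp (A / 2) * β i) (Real.exp A * γ)) (sc ℓ A))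
      = h A - Up (j + 1) (modeFlow m w Q α β γ A) (sc ℓ A) := by
    rw [hht, hWt]
    simp only [modeFlow]
    abel
  rw [e1]
  refine hstep.trans ?_
  have g2 := Nn_nonneg hℓ.le (j + 1) (h 0)
  have g3 : cOne D.K1 * Real.exp (-D.δ' * A) * Nn ℓ (j + 1) (h 0)
      ≤ cOne D.K1 * Real.exp (-D.δ' * A) * η := by
    have := (cOne_pos hκ1).le
    have h7 := (Real.exp_pos (-D.δ' * A)).le
    gcongr
  have g4 : c2 * (μ0 * Nn ℓ (j + 1) (h 0) + μ0 * η) ≤ ε * η := by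
    calc c2 * (μ0 * Nn ℓ (j + 1) (h 0) + μ0 * η) ≤ c2 * (μ0 * η + μ0 * η) := by gcongr
      _ = 2 * (c2 * μ0) * η := by ring
      _ ≤ 2 * (ε / 2) * η := by gcongr
      _ = ε * η := by ring
  calc _ ≤ cOne D.K1 * Real.exp (-D.δ' * A) * η + ε * η := add_le_add g3 g4
    _ = _ := by ring

end Vale.Agent.P139.H605
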