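import Vale.Agent.P139.H605.Conv

/-!
# P139, block N (helper605): the scalar bootstrap
-/

open Set MeasureTheory intervalIntegral

namespace Vale.Agent.P139.H605

/-- Continuity argument: a nonlinear Gronwall inequality which holds as long as `y ≤ ρ`. -/
theorem boot {A L c ρ : ℝ} (hA : 0 ≤ A) (hL : 0 < L) (hc : 0 < c) {y : ℝ → ℝ}
    (hy : ContinuousOn y (Icc 0 A)) (hy0 : y 0 < ρ)
    (hsmall : 2 * (c * Real.exp (2 * L * A)) < ρ)
    (h : ∀ t ∈ Icc (0 : ℝ) A, (∀ s ∈ Icc (0 : ℝ) t, y s ≤ ρ) →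
      y t ≤ c + ∫ s in (0 : ℝ)..t, L * y s) :
    ∀ t ∈ Icc (0 : ℝ) A, y t ≤ 2 * (c * Real.exp (2 * L * t)) := by
  have hexp : ∀ t ∈ Icc (0 : ℝ) A, 2 * (c * Real.exp (2 * L * t)) < ρ := by
    intro t ht
    refine lt_of_le_of_lt ?_ hsmall
    have : Real.exp (2 * L * t) ≤ Real.exp (2 * L * A) := by
      apply Real.exp_le_exp.2
      have := ht.2
      gcongr
    gcongr
  -- on an interval on which `y ≤ ρ` the Gronwall bound holds
  have key : ∀ T ∈ Icc (0 : ℝ) A, (∀ s ∈ Icc (0 : ℝ) T, y s ≤ ρ) →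
      ∀ t ∈ Icc (0 : ℝ) T, y t ≤ 2 * (c * Real.exp (2 * L * t)) := by
    intro T hT hρ
    refine gronwall2 hT.1 (hy.mono (Icc_subset_Icc le_rfl hT.2)) hc hL ?_
    intro t ht
    exact h t ⟨ht.1, ht.2.trans hT.2⟩ fun s hs => hρ s ⟨hs.1, hs.2.trans ht.2⟩
  by_cases hall : ∀ s ∈ Icc (0 : ℝ) A, y s ≤ ρ
  · exact key A ⟨hA, le_rfl⟩ hall
  exfalso
  push Not at hall
  obtain ⟨s0, hs0, hys0⟩ := hall
  -- the first time at which `y ≥ ρ`
  set S : Set ℝ := {t ∈ Icc (0 : ℝ) A | ρ ≤ y t} with hS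
  have hScl : IsClosed S := by
    have : S = Icc 0 A ∩ y ⁻¹' (Ici ρ) := by
      ext t; simp [hS]
    rw [this]
    exact hy.preimage_isClosed_of_isClosed isClosed_Icc isClosed_Ici
  have hSne : S.Nonempty := ⟨s0, hs0, hys0.le⟩
  have hSbdd : BddBelow S := ⟨0, fun t ht => ht.1.1⟩
  set T := sInf S with hTdef
  have hTS : T ∈ S := hScl.csInf_mem hSne hSbdd
  have hTA : T ∈ Icc (0 : ℝ) A := hTS.1
  have hlt : ∀ s ∈ Ico (0 : ℝ) T, y s < ρ := by
    intro s hs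
    by_contra hcon
    push Not at hcon
    have : s ∈ S := ⟨⟨hs.1, hs.2.le.trans hTA.2⟩, hcon⟩
    exact absurd (csInf_le hSbdd this) (not_le.2 hs.2)
  have hT0 : 0 < T := by
    rcases hTA.1.lt_or_eq with h0 | h0
    · exact h0
    · exfalso
      have h4 : ρ ≤ y T := hTS.2
      rw [← h0] at h4
      linarith
  have hTle : y T ≤ ρ := by
    have hcl : T ∈ closure (Ico (0 : ℝ) T) := by
      rw [closure_Ico hT0.ne]
      exact ⟨hT0.le, le_rfl⟩
    have hcw : ContinuousWithinAt y (Ico 0 T) T :=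
      (hy T hTA).mono fun s hs => ⟨hs.1, hs.2.le.trans hTA.2⟩
    have : (nhdsWithin T (Ico (0 : ℝ) T)).NeBot := mem_closure_iff_nhdsWithin_neBot.1 hcl
    refine le_of_tendsto hcw ?_
    filter_upwards [self_mem_nhdsWithin] with s hs
    exact (hlt s hs).le
  have h5 := key T hTA (fun s hs => by
    rcases hs.2.lt_or_eq with h6 | h6
    · exact (hlt s ⟨hs.1, h6⟩).le
    · rw [h6]; exact hTle) T ⟨hT0.le, le_rfl⟩
  have h6 := hexp T hTA
  have h7 : ρ ≤ y T := hTS.2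
  linarith

end Vale.Agent.P139.H605
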