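import Vale.Agent.P139.H605.Conv
import Mathlib.MeasureTheory.Integral.IntervalIntegral.Basic
import Mathlib.Analysis.Normed.Operator.Basic

/-!
# P139, block N1/N2 (helper605): the abstract one step estimate

`T` = torus functions with `K` derivatives, `T'` = torus functions with `K-1` derivatives,
`X` = functions on `R^d` with `K-1` derivatives.
`J t`, `J' t` = scaled weights (norms `‖J t v‖`, `‖J' t v‖`), `Jt t` = top order weight,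
`Jo` = order zero weight; `U`, `U'` free flows, `b` = linearised potential, `m` = multiplication by
the inner cut-off, `R` = restriction to `R^d`, `Ex` = extension to the torus, `S0`, `S` the free and
the linearised flow on `R^d`, `P` the projection on the symmetry modes.
-/

open Set MeasureTheory intervalIntegral

namespace Vale.Agent.P139.H605

structure StepOps (T T' X Z : Type*) [NormedAddCommGroup T] [NormedSpace ℝ T]
    [NormedAddCommGroup T'] [NormedSpace ℝ T'] [NormedAddCommGroup X] [NormedSpace ℝ X]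
    [NormedAddCommGroup Z] [NormedSpace ℝ Z] (κ δ θ c β A : ℝ) where
  J : ℝ → T →L[ℝ] Z
  J' : ℝ → T' →L[ℝ] Z
  Jt : ℝ → T →L[ℝ] Z
  Jo : T →L[ℝ] Z
  ι : T →L[ℝ] T'
  m : T →L[ℝ] T
  U : ℝ → ℝ → T →L[ℝ] T
  U' : ℝ → ℝ → T' →L[ℝ] T'
  b : ℝ → T →L[ℝ] T
  R : ℝ → T →L[ℝ] X
  Ex : ℝ → X →L[ℝ] T'
  S0 : ℝ → X →L[ℝ] X
  S : ℝ → X →L[ℝ] X
  Bx : X →L[ℝ] X
  P : X →L[ℝ] X
  J_le : ∀ t ∈ Icc (0 : ℝ) A, ∀ v, ‖J t v‖ ≤ κ * (‖Jo v‖ + ‖Jt t v‖)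
  Jo_le : ∀ t ∈ Icc (0 : ℝ) A, ∀ v, ‖Jo v‖ ≤ ‖J' t (ι v)‖
  Jt_le : ∀ t ∈ Icc (0 : ℝ) A, ∀ v, ‖Jt t v‖ ≤ ‖J t v‖
  J'_le : ∀ t ∈ Icc (0 : ℝ) A, ∀ v, ‖J' t (ι v)‖ ≤ ‖J t v‖
  U_le : ∀ t ∈ Icc (0 : ℝ) A, ∀ s ∈ Icc (0 : ℝ) t, ∀ v, ‖J t (U t s v)‖ ≤ ‖J s v‖
  Ut_le : ∀ t ∈ Icc (0 : ℝ) A, ∀ s ∈ Icc (0 : ℝ) t, ∀ v,
    ‖Jt t (U t s v)‖ ≤ Real.exp (-c * (t - s)) * ‖Jt s v‖
  U'_le : ∀ t ∈ Icc (0 : ℝ) A, ∀ s ∈ Icc (0 : ℝ) t, ∀ v,
    ‖J' t (U' t s v)‖ ≤ Real.exp (-δ * (t - s)) * ‖J' s v‖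
  b_le : ∀ s ∈ Icc (0 : ℝ) A, ∀ v, ‖J s (b s v)‖ ≤ κ * ‖J s v‖
  bt_le : ∀ s ∈ Icc (0 : ℝ) A, ∀ v, ‖Jt s (b s v)‖ ≤ β * ‖Jt s v‖ + κ * ‖Jo v‖
  R_le : ∀ t ∈ Icc (0 : ℝ) A, ∀ v, ‖R t v‖ ≤ κ * ‖J t v‖
  Ex_le : ∀ t ∈ Icc (0 : ℝ) A, ∀ x, ‖J' t (Ex t x)‖ ≤ κ * ‖x‖
  ER : ∀ t ∈ Icc (0 : ℝ) A, ∀ v, Ex t (R t v) = ι (m v)
  far_le : ∀ s ∈ Icc (0 : ℝ) A, ∀ v, ‖J' s (ι (v - m v))‖ ≤ κ * ‖J s v‖
  Rb : ∀ s ∈ Icc (0 : ℝ) A, ∀ v, R s (b s v) = Bx (R s v)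
  S0_le : ∀ t ∈ Icc (0 : ℝ) A, ∀ x, ‖S0 t x‖ ≤ ‖x‖
  Bx_le : ∀ x, ‖Bx x‖ ≤ κ * ‖x‖
  C1 : ∀ t ∈ Icc (0 : ℝ) A, ∀ s ∈ Icc (0 : ℝ) t, ∀ v,
    ‖R t (U t s v) - S0 (t - s) (R s v)‖ ≤ θ * ‖J s v‖
  C2 : ∀ t ∈ Icc (0 : ℝ) A, ∀ s ∈ Icc (0 : ℝ) t, ∀ v,
    ‖J' t (ι (U t s v - m (U t s v)) - U' t s (ι (v - m v)))‖ ≤ θ * ‖J s v‖
  Fb : ∀ s ∈ Icc (0 : ℝ) A, ∀ v, ‖J' s (ι (b s v - m (b s v)))‖ ≤ θ * ‖J s v‖
  duh : ∀ t ∈ Icc (0 : ℝ) A, ∀ x,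
    S t x = S0 t x + ∫ s in (0 : ℝ)..t, S0 (t - s) (Bx (S s x))
  duh_int : ∀ t ∈ Icc (0 : ℝ) A, ∀ x,
    IntervalIntegrable (fun s => S0 (t - s) (Bx (S s x))) volume 0 t
  dec : ∀ t ∈ Icc (0 : ℝ) A, ∀ x, ‖S t (x - P x)‖ ≤ κ * Real.exp (-δ * t) * ‖x‖
  P_le : ∀ x, ‖P x‖ ≤ κ * ‖x‖
  contJ : ∀ f : ℝ → T, ContinuousOn f (Icc 0 A) → ContinuousOn (fun t => J t (f t)) (Icc 0 A)
  contJt : ∀ f : ℝ → T, ContinuousOn f (Icc 0 A) → ContinuousOn (fun t => Jt t (f t)) (Icc 0 A)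
  contR : ∀ f : ℝ → T, ContinuousOn f (Icc 0 A) → ContinuousOn (fun t => R t (f t)) (Icc 0 A)
  contS : ∀ x, ContinuousOn (fun t => S t x) (Icc 0 A)

/-- The leading constant. -/
noncomputable def cOne (κ : ℝ) : ℝ := κ * (2 * κ ^ 3 + 2 * ((1 + κ ^ 3) + 2 * κ ^ 4))

/-- The auxiliary constants (depending on the length `A` of the step). -/
noncomputable def cY (κ A : ℝ) : ℝ := 2 * (A + 1) * Real.exp (2 * κ * A)
noncomputable def cD (κ A : ℝ) : ℝ :=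
  2 * ((1 + A * (κ * cY κ A + 1 + κ) + κ) * Real.exp (2 * κ * A))
noncomputable def cF (κ A : ℝ) : ℝ := 1 + A * (cY κ A + κ + κ * cY κ A + 1) + κ
noncomputable def cG (κ κ' : ℝ) : ℝ := 1 + κ' * κ ^ 2
noncomputable def cL (κ κ' A : ℝ) : ℝ := cF κ A + κ * cD κ A + cG κ κ'
noncomputable def cP (κ κ' A : ℝ) : ℝ := κ * cL κ κ' A + 2 * κ * cG κ κ' + 1
noncomputable def cTwo (κ κ' A : ℝ) : ℝ := κ * (cL κ κ' A + 2 * cP κ κ' A + 2 * cG κ κ')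

variable {T T' X Z : Type*} [NormedAddCommGroup T] [NormedSpace ℝ T]
    [NormedAddCommGroup T'] [NormedSpace ℝ T'] [NormedAddCommGroup X] [NormedSpace ℝ X]
    [NormedAddCommGroup Z] [NormedSpace ℝ Z]
    [CompleteSpace T] [CompleteSpace X] [CompleteSpace Z]

/-- norm of an integral under a continuous linear map. -/
theorem norm_clm_integral_le {V W : Type*} [NormedAddCommGroup V] [NormedSpace ℝ V]
    [CompleteSpace V] [NormedAddCommGroup W] [NormedSpace ℝ W] [CompleteSpace W]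
    (L : V →L[ℝ] W) {f : ℝ → V} {g : ℝ → ℝ} {t : ℝ} (ht : 0 ≤ t)
    (hf : IntervalIntegrable f volume 0 t) (hg : ContinuousOn g (Icc 0 t))
    (h : ∀ s ∈ Icc (0 : ℝ) t, ‖L (f s)‖ ≤ g s) :
    ‖L (∫ s in (0 : ℝ)..t, f s)‖ ≤ ∫ s in (0 : ℝ)..t, g s := by
  rw [← L.intervalIntegral_comp_comm hf]
  apply norm_integral_le_of_norm_le ht
  · exact Filter.Eventually.of_forall fun s hs => h s ⟨hs.1.le, hs.2⟩
  · apply ContinuousOn.intervalIntegrable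
    rwa [uIcc_of_le ht]

namespace StepOps

variable {κ δ θ c β A : ℝ} (D : StepOps T T' X Z κ δ θ c β A)

include D

/-- The crude bound. -/
theorem crude (hA : 0 ≤ A) (hκ : 1 ≤ κ) {γ : ℝ} (hγ : 0 < γ) {ε G H : ℝ → T}
    (hεc : ContinuousOn ε (Icc 0 A))
    (hmild : ∀ t ∈ Icc (0 : ℝ) A, ε t = D.U t 0 (ε 0)
      + (∫ s in (0 : ℝ)..t, D.U t s (D.b s (ε s) + G s)) + H t)
    (hint : ∀ t ∈ Icc (0 : ℝ) A,
      IntervalIntegrable (fun s => D.U t s (D.b s (ε s) + G s)) volume 0 t)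
    (hG : ∀ s ∈ Icc (0 : ℝ) A, ‖D.J s (G s)‖ ≤ γ) (hH : ∀ s ∈ Icc (0 : ℝ) A, ‖D.J s (H s)‖ ≤ γ) :
    ∀ t ∈ Icc (0 : ℝ) A,
      ‖D.J t (ε t)‖ ≤ 2 * ((‖D.J 0 (ε 0)‖ + (A + 1) * γ) * Real.exp (2 * κ * t)) := by
  have hκ0 : 0 < κ := by linarith
  have hy : ContinuousOn (fun t => ‖D.J t (ε t)‖) (Icc 0 A) := (D.contJ ε hεc).norm
  refine gronwall2 hA hy (c := ‖D.J 0 (ε 0)‖ + (A + 1) * γ) (L := κ) (by positivity) hκ0 ?_
  intro t ht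
  have hsub : Icc (0 : ℝ) t ⊆ Icc 0 A := Icc_subset_Icc le_rfl ht.2
  have hyt : ContinuousOn (fun s => κ * ‖D.J s (ε s)‖) (Icc 0 t) :=
    continuousOn_const.mul (hy.mono hsub)
  have e1 : ‖D.J t (∫ s in (0 : ℝ)..t, D.U t s (D.b s (ε s) + G s))‖
      ≤ ∫ s in (0 : ℝ)..t, (κ * ‖D.J s (ε s)‖ + γ) := by
    refine norm_clm_integral_le _ ht.1 (hint t ht) (hyt.add continuousOn_const) ?_
    intro s hs
    have hsA := hsub hs
    calc ‖D.J t (D.U t s (D.b s (ε s) + G s))‖ ≤ ‖D.J s (D.b s (ε s) + G s)‖ :=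
          D.U_le t ht s hs _
      _ ≤ ‖D.J s (D.b s (ε s))‖ + ‖D.J s (G s)‖ := by rw [map_add]; exact norm_add_le _ _
      _ ≤ _ := add_le_add (D.b_le s hsA _) (hG s hsA)
  have e2 : ∫ s in (0 : ℝ)..t, (κ * ‖D.J s (ε s)‖ + γ)
      = (∫ s in (0 : ℝ)..t, κ * ‖D.J s (ε s)‖) + γ * t := by
    rw [intervalIntegral.integral_add]
    · simp [mul_comm]
    · apply ContinuousOn.intervalIntegrable; rwa [uIcc_of_le ht.1]
    · simp
  have e3 : ‖D.J t (ε t)‖ ≤ ‖D.J t (D.U t 0 (ε 0))‖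
      + ‖D.J t (∫ s in (0 : ℝ)..t, D.U t s (D.b s (ε s) + G s))‖ + ‖D.J t (H t)‖ := by
    conv_lhs => rw [hmild t ht]
    rw [map_add, map_add]
    exact norm_add₃_le
  have e4 := D.U_le t ht 0 ⟨le_rfl, ht.1⟩ (ε 0)
  have e5 := hH t ht
  have e6 : γ * t ≤ A * γ := by rw [mul_comm]; gcongr; exact ht.2
  show ‖D.J t (ε t)‖ ≤ _
  linarith

/-- The core: comparison of the restriction with the flow on `R^d`. -/
theorem core (hA : 0 ≤ A) (hκ : 1 ≤ κ) (hθ : 0 ≤ θ) {γ Y : ℝ} (hγ : 0 < γ) {ε G H : ℝ → T}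
    (hεc : ContinuousOn ε (Icc 0 A))
    (hmild : ∀ t ∈ Icc (0 : ℝ) A, ε t = D.U t 0 (ε 0)
      + (∫ s in (0 : ℝ)..t, D.U t s (D.b s (ε s) + G s)) + H t)
    (hint : ∀ t ∈ Icc (0 : ℝ) A,
      IntervalIntegrable (fun s => D.U t s (D.b s (ε s) + G s)) volume 0 t)
    (hG : ∀ s ∈ Icc (0 : ℝ) A, ‖D.J s (G s)‖ ≤ γ) (hH : ∀ s ∈ Icc (0 : ℝ) A, ‖D.J s (H s)‖ ≤ γ)
    (hY : ∀ s ∈ Icc (0 : ℝ) A, ‖D.J s (ε s)‖ ≤ Y) :
    ∀ t ∈ Icc (0 : ℝ) A, ‖D.R t (ε t) - D.S t (D.R 0 (ε 0))‖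
      ≤ 2 * ((θ * ‖D.J 0 (ε 0)‖ + A * (θ * (κ * Y + γ) + κ * γ) + κ * γ)
        * Real.exp (2 * κ * t)) := by
  have hκ0 : 0 < κ := by linarith
  have hY0 : 0 ≤ Y := (norm_nonneg _).trans (hY 0 ⟨le_rfl, hA⟩)
  set z0 := D.R 0 (ε 0) with hz0
  have hy : ContinuousOn (fun t => ‖D.R t (ε t) - D.S t z0‖) (Icc 0 A) :=
    ((D.contR ε hεc).sub (D.contS z0)).norm
  refine gronwall2 hA hy (c := θ * ‖D.J 0 (ε 0)‖ + A * (θ * (κ * Y + γ) + κ * γ) + κ * γ)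
    (L := κ) (by positivity) hκ0 ?_
  intro t ht
  have hsub : Icc (0 : ℝ) t ⊆ Icc 0 A := Icc_subset_Icc le_rfl ht.2
  have hyt : ContinuousOn (fun s => κ * ‖D.R s (ε s) - D.S s z0‖) (Icc 0 t) :=
    continuousOn_const.mul (hy.mono hsub)
  have hint1 : IntervalIntegrable (fun s => D.R t (D.U t s (D.b s (ε s) + G s))) volume 0 t :=
    ⟨(D.R t).integrable_comp (hint t ht).1, (D.R t).integrable_comp (hint t ht).2⟩
  have hint2 := D.duh_int t ht z0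
  have e0 : D.R t (ε t) - D.S t z0 = (D.R t (D.U t 0 (ε 0)) - D.S0 t z0)
      + (∫ s in (0 : ℝ)..t, (D.R t (D.U t s (D.b s (ε s) + G s))
          - D.S0 (t - s) (D.Bx (D.S s z0)))) + D.R t (H t) := by
    rw [intervalIntegral.integral_sub hint1 hint2, (D.R t).intervalIntegral_comp_comm (hint t ht)]
    conv_lhs => rw [hmild t ht, D.duh t ht z0]
    rw [map_add, map_add]
    abel
  have e1 : ‖∫ s in (0 : ℝ)..t, (D.R t (D.U t s (D.b s (ε s) + G s))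
          - D.S0 (t - s) (D.Bx (D.S s z0)))‖
      ≤ ∫ s in (0 : ℝ)..t, (κ * ‖D.R s (ε s) - D.S s z0‖ + (θ * (κ * Y + γ) + κ * γ)) := by
    refine norm_integral_le_of_norm_le ht.1 ?_ ?_
    · refine Filter.Eventually.of_forall fun s hs => ?_
      have hs' : s ∈ Icc (0 : ℝ) t := ⟨hs.1.le, hs.2⟩
      have hsA := hsub hs'
      set v := D.b s (ε s) + G s with hv
      have f1 : D.R t (D.U t s v) - D.S0 (t - s) (D.Bx (D.S s z0))
          = (D.R t (D.U t s v) - D.S0 (t - s) (D.R s v))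
            + D.S0 (t - s) (D.Bx (D.R s (ε s) - D.S s z0) + D.R s (G s)) := by
        rw [hv, map_add (D.R s), D.Rb s hsA]
        simp only [map_add, map_sub]
        abel
      have f2 : ‖D.J s v‖ ≤ κ * Y + γ := by
        rw [hv, map_add]
        refine (norm_add_le _ _).trans (add_le_add ?_ (hG s hsA))
        exact (D.b_le s hsA _).trans (by gcongr; exact hY s hsA)
      have hts : t - s ∈ Icc (0 : ℝ) A := ⟨by linarith [hs'.2], by linarith [hs'.1, ht.2]⟩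
      have f3 : ‖D.S0 (t - s) (D.Bx (D.R s (ε s) - D.S s z0) + D.R s (G s))‖
          ≤ κ * ‖D.R s (ε s) - D.S s z0‖ + κ * γ := by
        refine (D.S0_le _ hts _).trans ((norm_add_le _ _).trans (add_le_add (D.Bx_le _) ?_))
        exact (D.R_le s hsA _).trans (by gcongr; exact hG s hsA)
      rw [f1]
      refine (norm_add_le _ _).trans ?_
      have f4 := D.C1 t ht s hs' v
      have f5 : θ * ‖D.J s v‖ ≤ θ * (κ * Y + γ) := by gcongr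
      linarith
    · apply ContinuousOn.intervalIntegrable
      rw [uIcc_of_le ht.1]
      exact hyt.add continuousOn_const
  have e2 : ∫ s in (0 : ℝ)..t, (κ * ‖D.R s (ε s) - D.S s z0‖ + (θ * (κ * Y + γ) + κ * γ))
      = (∫ s in (0 : ℝ)..t, κ * ‖D.R s (ε s) - D.S s z0‖) + (θ * (κ * Y + γ) + κ * γ) * t := by
    rw [intervalIntegral.integral_add]
    · rw [intervalIntegral.integral_const, sub_zero, smul_eq_mul, mul_comm t]
    · apply ContinuousOn.intervalIntegrable; rwa [uIcc_of_le ht.1]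
    · simp
  have e3 : ‖D.R t (D.U t 0 (ε 0)) - D.S0 t z0‖ ≤ θ * ‖D.J 0 (ε 0)‖ := by
    have := D.C1 t ht 0 ⟨le_rfl, ht.1⟩ (ε 0)
    rwa [sub_zero] at this
  have e4 : ‖D.R t (H t)‖ ≤ κ * γ := (D.R_le t ht _).trans (by gcongr; exact hH t ht)
  have e5 : (θ * (κ * Y + γ) + κ * γ) * t ≤ A * (θ * (κ * Y + γ) + κ * γ) := by
    rw [mul_comm]; gcongr; exact ht.2
  show ‖D.R t (ε t) - D.S t z0‖ ≤ _
  rw [e0]
  refine norm_add₃_le.trans ?_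
  linarith

/-- The far part. -/
theorem far (hA : 0 ≤ A) (hκ : 1 ≤ κ) (hθ : 0 ≤ θ) (hδ : 0 ≤ δ) {γ Y : ℝ} (hγ : 0 < γ)
    {ε G H : ℝ → T}
    (hmild : ∀ t ∈ Icc (0 : ℝ) A, ε t = D.U t 0 (ε 0)
      + (∫ s in (0 : ℝ)..t, D.U t s (D.b s (ε s) + G s)) + H t)
    (hint : ∀ t ∈ Icc (0 : ℝ) A,
      IntervalIntegrable (fun s => D.U t s (D.b s (ε s) + G s)) volume 0 t)
    (hG : ∀ s ∈ Icc (0 : ℝ) A, ‖D.J s (G s)‖ ≤ γ) (hH : ∀ s ∈ Icc (0 : ℝ) A, ‖D.J s (H s)‖ ≤ γ)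
    (hY : ∀ s ∈ Icc (0 : ℝ) A, ‖D.J s (ε s)‖ ≤ Y) :
    ∀ t ∈ Icc (0 : ℝ) A, ‖D.J' t (D.ι (ε t - D.m (ε t)))‖
      ≤ κ * Real.exp (-δ * t) * ‖D.J 0 (ε 0)‖ + (θ * ‖D.J 0 (ε 0)‖
        + A * (θ * Y + κ * γ + θ * (κ * Y + γ)) + κ * γ) := by
  have hκ0 : 0 < κ := by linarith
  have hY0 : 0 ≤ Y := (norm_nonneg _).trans (hY 0 ⟨le_rfl, hA⟩)
  intro t ht
  have hsub : Icc (0 : ℝ) t ⊆ Icc 0 A := Icc_subset_Icc le_rfl ht.2
  set L : T →L[ℝ] Z := (D.J' t).comp (D.ι.comp (ContinuousLinearMap.id ℝ T - D.m)) with hL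
  have hLv : ∀ v, D.J' t (D.ι (v - D.m v)) = L v := fun v => by simp [hL]
  have key : ∀ s ∈ Icc (0 : ℝ) t, ∀ v, ‖L (D.U t s v)‖
      ≤ Real.exp (-δ * (t - s)) * ‖D.J' s (D.ι (v - D.m v))‖ + θ * ‖D.J s v‖ := by
    intro s hs v
    have h1 := D.C2 t ht s hs v
    have h2 := D.U'_le t ht s hs (D.ι (v - D.m v))
    rw [← hLv]
    have h3 : D.J' t (D.ι (D.U t s v - D.m (D.U t s v)))
        = D.J' t (D.ι (D.U t s v - D.m (D.U t s v)) - D.U' t s (D.ι (v - D.m v)))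
          + D.J' t (D.U' t s (D.ι (v - D.m v))) := by
      rw [← map_add]; congr 1; abel
    rw [h3]
    refine (norm_add_le _ _).trans ?_
    linarith
  have e1 : ‖L (∫ s in (0 : ℝ)..t, D.U t s (D.b s (ε s) + G s))‖
      ≤ ∫ _s in (0 : ℝ)..t, (θ * Y + κ * γ + θ * (κ * Y + γ)) := by
    refine norm_clm_integral_le _ ht.1 (hint t ht) continuousOn_const ?_
    intro s hs
    have hsA := hsub hs
    set v := D.b s (ε s) + G s with hv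
    have f2 : ‖D.J s v‖ ≤ κ * Y + γ := by
      rw [hv, map_add]
      refine (norm_add_le _ _).trans (add_le_add ?_ (hG s hsA))
      exact (D.b_le s hsA _).trans (by gcongr; exact hY s hsA)
    have f3 : ‖D.J' s (D.ι (v - D.m v))‖ ≤ θ * Y + κ * γ := by
      have g1 : D.J' s (D.ι (v - D.m v)) = D.J' s (D.ι (D.b s (ε s) - D.m (D.b s (ε s))))
          + D.J' s (D.ι (G s - D.m (G s))) := by
        rw [← map_add, ← map_add]; congr 2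
        rw [hv, map_add]; abel
      rw [g1]
      refine (norm_add_le _ _).trans (add_le_add ?_ ?_)
      · exact (D.Fb s hsA _).trans (by gcongr; exact hY s hsA)
      · exact (D.far_le s hsA _).trans (by gcongr; exact hG s hsA)
    have f4 := key s hs v
    have f5 : Real.exp (-δ * (t - s)) ≤ 1 := by
      apply Real.exp_le_one_iff.2
      have : 0 ≤ t - s := by linarith [hs.2]
      nlinarith
    have f6 : Real.exp (-δ * (t - s)) * ‖D.J' s (D.ι (v - D.m v))‖ ≤ 1 * (θ * Y + κ * γ) := by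
      gcongr
    have f7 : θ * ‖D.J s v‖ ≤ θ * (κ * Y + γ) := by gcongr
    linarith
  rw [intervalIntegral.integral_const, sub_zero, smul_eq_mul] at e1
  have e2 : ‖L (D.U t 0 (ε 0))‖ ≤ κ * Real.exp (-δ * t) * ‖D.J 0 (ε 0)‖ + θ * ‖D.J 0 (ε 0)‖ := by
    have h1 := key 0 ⟨le_rfl, ht.1⟩ (ε 0)
    rw [sub_zero] at h1
    have h2 := D.far_le 0 ⟨le_rfl, hA⟩ (ε 0)
    have h3 : Real.exp (-δ * t) * ‖D.J' 0 (D.ι (ε 0 - D.m (ε 0)))‖
        ≤ Real.exp (-δ * t) * (κ * ‖D.J 0 (ε 0)‖) := by gcongr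
    linarith
  have e3 : ‖L (H t)‖ ≤ κ * γ := by
    rw [← hLv]
    exact (D.far_le t ht _).trans (by gcongr; exact hH t ht)
  have e4 : ‖L (ε t)‖ ≤ ‖L (D.U t 0 (ε 0))‖
      + ‖L (∫ s in (0 : ℝ)..t, D.U t s (D.b s (ε s) + G s))‖ + ‖L (H t)‖ := by
    conv_lhs => rw [hmild t ht]
    rw [map_add, map_add]
    exact norm_add₃_le
  have e5 : t * (θ * Y + κ * γ + θ * (κ * Y + γ)) ≤ A * (θ * Y + κ * γ + θ * (κ * Y + γ)) := by
    gcongr; exact ht.2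
  rw [hLv]
  linarith

/-- The top order estimate of the remainder. -/
theorem top (hA : 0 ≤ A) (hκ : 1 ≤ κ) (hδ : 0 ≤ δ) (hcδ : δ + 1 ≤ c) (hβ0 : 0 ≤ β)
    (hβ : 2 * β ≤ c - δ) {γ γ' l0 l1 p0 : ℝ} (hγ : 0 < γ) (hγ' : 0 ≤ γ') (hl0 : 0 ≤ l0)
    (hl1 : 0 ≤ l1) {r G H : ℝ → T}
    (hrc : ContinuousOn r (Icc 0 A)) (hHc : ContinuousOn H (Icc 0 A))
    (hmild : ∀ t ∈ Icc (0 : ℝ) A, r t = D.U t 0 (r 0)
      + (∫ s in (0 : ℝ)..t, D.U t s (D.b s (r s) + G s)) + H t)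
    (hint : ∀ t ∈ Icc (0 : ℝ) A,
      IntervalIntegrable (fun s => D.U t s (D.b s (r s) + G s)) volume 0 t)
    (hG : ∀ s ∈ Icc (0 : ℝ) A, ‖D.J s (G s)‖ ≤ γ) (hH : ∀ s ∈ Icc (0 : ℝ) A, ‖D.J s (H s)‖ ≤ γ')
    (hlow : ∀ s ∈ Icc (0 : ℝ) A, ‖D.Jo (r s)‖ ≤ l0 * Real.exp (-δ * s) + l1)
    (hp0 : ‖D.Jt 0 (r 0)‖ ≤ p0) :
    ∀ t ∈ Icc (0 : ℝ) A, ‖D.Jt t (r t)‖
      ≤ 2 * ((p0 + κ * l0) * Real.exp (-δ * t) + (κ * l1 + (2 * κ * γ' + γ))) + γ' := by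
  have hκ0 : 0 < κ := by linarith
  have hp00 : 0 ≤ p0 := (norm_nonneg _).trans hp0
  have hJtH : ∀ s ∈ Icc (0 : ℝ) A, ‖D.Jt s (H s)‖ ≤ γ' := fun s hs =>
    (D.Jt_le s hs _).trans (hH s hs)
  have hJoH : ∀ s ∈ Icc (0 : ℝ) A, ‖D.Jo (H s)‖ ≤ γ' := fun s hs =>
    ((D.Jo_le s hs _).trans (D.J'_le s hs _)).trans (hH s hs)
  have hJtG : ∀ s ∈ Icc (0 : ℝ) A, ‖D.Jt s (G s)‖ ≤ γ := fun s hs =>
    (D.Jt_le s hs _).trans (hG s hs)
  have hy : ContinuousOn (fun t => ‖D.Jt t (r t - H t)‖) (Icc 0 A) :=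
    (D.contJt _ (hrc.sub hHc)).norm
  have main : ∀ t ∈ Icc (0 : ℝ) A, ‖D.Jt t (r t - H t)‖
      ≤ 2 * ((p0 + κ * l0) * Real.exp (-δ * t) + (κ * l1 + (2 * κ * γ' + γ))) := by
    refine gronwall_damped hA hy (c := c) (β := β) hδ hcδ hβ0 hβ hp00 (by positivity)
      (by positivity) ?_
    intro t ht
    have hsub : Icc (0 : ℝ) t ⊆ Icc 0 A := Icc_subset_Icc le_rfl ht.2
    have e0 : r t - H t = D.U t 0 (r 0) + ∫ s in (0 : ℝ)..t, D.U t s (D.b s (r s) + G s) := by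
      conv_lhs => rw [hmild t ht]
      abel
    have e1 : ‖D.Jt t (∫ s in (0 : ℝ)..t, D.U t s (D.b s (r s) + G s))‖
        ≤ ∫ s in (0 : ℝ)..t, Real.exp (-c * (t - s)) * (β * ‖D.Jt s (r s - H s)‖
          + ((κ * l0) * Real.exp (-δ * s) + (κ * l1 + (2 * κ * γ' + γ)))) := by
      refine norm_clm_integral_le _ ht.1 (hint t ht) ?_ ?_
      · apply ContinuousOn.mul (by fun_prop)
        exact (continuousOn_const.mul (hy.mono hsub)).add (by fun_prop)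
      · intro s hs
        have hsA := hsub hs
        refine (D.Ut_le t ht s hs _).trans ?_
        apply mul_le_mul_of_nonneg_left _ (Real.exp_pos _).le
        have f1 : D.Jt s (D.b s (r s) + G s) = D.Jt s (D.b s (r s - H s))
            + D.Jt s (D.b s (H s)) + D.Jt s (G s) := by
          rw [← map_add, ← map_add, ← map_add, sub_add_cancel]
        rw [f1]
        have f2 := D.bt_le s hsA (r s - H s)
        have f3 : ‖D.Jt s (D.b s (H s))‖ ≤ κ * γ' :=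
          (D.Jt_le s hsA _).trans ((D.b_le s hsA _).trans (by gcongr; exact hH s hsA))
        have f4 : ‖D.Jo (r s - H s)‖ ≤ l0 * Real.exp (-δ * s) + l1 + γ' := by
          rw [map_sub]
          refine (norm_sub_le _ _).trans (add_le_add (hlow s hsA) (hJoH s hsA))
        have f5 : κ * ‖D.Jo (r s - H s)‖ ≤ κ * (l0 * Real.exp (-δ * s) + l1 + γ') := by gcongr
        refine norm_add₃_le.trans ?_
        have f6 := hJtG s hsA
        linarith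
    have e2 : ‖D.Jt t (D.U t 0 (r 0))‖ ≤ Real.exp (-c * t) * p0 := by
      have := D.Ut_le t ht 0 ⟨le_rfl, ht.1⟩ (r 0)
      rw [sub_zero] at this
      refine this.trans (by gcongr)
    show ‖D.Jt t (r t - H t)‖ ≤ _
    rw [e0, map_add]
    exact (norm_add_le _ _).trans (add_le_add e2 e1)
  intro t ht
  have h1 : D.Jt t (r t) = D.Jt t (r t - H t) + D.Jt t (H t) := by
    rw [← map_add, sub_add_cancel]
  rw [h1]
  exact (norm_add_le _ _).trans (add_le_add (main t ht) (hJtH t ht))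

/-- THE ONE STEP ESTIMATE (abstract form). `ε` solves the linearised torus equation with source `G`
and additive error `H`, `E` is the cut-off mode curve. -/
theorem one_step (hA : 0 ≤ A) (hκ : 1 ≤ κ) (hθ : 0 ≤ θ) (hθ1 : θ ≤ 1) (hδ : 0 ≤ δ)
    (hcδ : δ + 1 ≤ c) (hβ0 : 0 ≤ β) (hβ : 2 * β ≤ c - δ) {γ κ' : ℝ} (hγ : 0 < γ) (hκ' : 0 ≤ κ')
    {ε G H E HE : ℝ → T}
    (hεc : ContinuousOn ε (Icc 0 A)) (hHc : ContinuousOn H (Icc 0 A))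
    (hEc : ContinuousOn E (Icc 0 A)) (hHEc : ContinuousOn HE (Icc 0 A))
    (hmild : ∀ t ∈ Icc (0 : ℝ) A, ε t = D.U t 0 (ε 0)
      + (∫ s in (0 : ℝ)..t, D.U t s (D.b s (ε s) + G s)) + H t)
    (hint : ∀ t ∈ Icc (0 : ℝ) A,
      IntervalIntegrable (fun s => D.U t s (D.b s (ε s) + G s)) volume 0 t)
    (hG : ∀ s ∈ Icc (0 : ℝ) A, ‖D.J s (G s)‖ ≤ γ) (hH : ∀ s ∈ Icc (0 : ℝ) A, ‖D.J s (H s)‖ ≤ γ)
    (hEx : ∀ t ∈ Icc (0 : ℝ) A, ‖D.J' t (D.ι (E t) - D.Ex t (D.S t (D.P (D.R 0 (ε 0)))))‖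
      ≤ κ' * θ * ‖D.P (D.R 0 (ε 0))‖)
    (hEmild : ∀ t ∈ Icc (0 : ℝ) A, E t = D.U t 0 (E 0)
      + (∫ s in (0 : ℝ)..t, D.U t s (D.b s (E s))) + HE t)
    (hEint : ∀ t ∈ Icc (0 : ℝ) A, IntervalIntegrable (fun s => D.U t s (D.b s (E s))) volume 0 t)
    (hE0 : ‖D.J 0 (E 0)‖ ≤ κ * ‖D.P (D.R 0 (ε 0))‖)
    (hHE : ∀ s ∈ Icc (0 : ℝ) A, ‖D.J s (HE s)‖ ≤ κ' * θ * ‖D.P (D.R 0 (ε 0))‖) :
    ‖D.J A (ε A - E A)‖ ≤ cOne κ * Real.exp (-δ * A) * ‖D.J 0 (ε 0)‖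
      + cTwo κ κ' A * (θ * ‖D.J 0 (ε 0)‖ + γ) := by
  have hκ0 : 0 < κ := by linarith
  have h0A : (0 : ℝ) ∈ Icc (0 : ℝ) A := ⟨le_rfl, hA⟩
  have hAA : A ∈ Icc (0 : ℝ) A := ⟨hA, le_rfl⟩
  set n0 := ‖D.J 0 (ε 0)‖ with hn0
  have hn00 : 0 ≤ n0 := norm_nonneg _
  set q := θ * n0 + γ with hq
  have hq0 : 0 < q := by positivity
  have hγq : γ ≤ q := by rw [hq]; linarith [mul_nonneg hθ hn00]
  have hθnq : θ * n0 ≤ q := by rw [hq]; linarith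
  set eA := Real.exp (2 * κ * A) with heA
  have heA1 : 1 ≤ eA := Real.one_le_exp (by positivity)
  have hexp : ∀ t ∈ Icc (0 : ℝ) A, Real.exp (2 * κ * t) ≤ eA := fun t ht =>
    Real.exp_le_exp.2 (by gcongr; exact ht.2)
  -- crude bound
  set Y := 2 * ((n0 + (A + 1) * γ) * eA) with hYdef
  have hY0 : 0 ≤ Y := by positivity
  have hY : ∀ s ∈ Icc (0 : ℝ) A, ‖D.J s (ε s)‖ ≤ Y := by
    intro s hs
    refine (D.crude hA hκ hγ hεc hmild hint hG hH s hs).trans ?_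
    rw [hYdef]; gcongr; exact hexp s hs
  have hθY : θ * Y ≤ cY κ A * q := by
    have h1 : θ * Y = 2 * eA * (θ * n0 + θ * ((A + 1) * γ)) := by rw [hYdef]; ring
    have h2 : θ * ((A + 1) * γ) ≤ 1 * ((A + 1) * γ) := by gcongr
    have h3 : θ * n0 + θ * ((A + 1) * γ) ≤ (A + 1) * q := by
      have : (A + 1) * q = θ * n0 + (A + 1) * γ + A * (θ * n0) := by rw [hq]; ring
      linarith [mul_nonneg hA (mul_nonneg hθ hn00)]
    rw [h1, cY, ← heA]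
    calc 2 * eA * (θ * n0 + θ * ((A + 1) * γ)) ≤ 2 * eA * ((A + 1) * q) := by gcongr
      _ = _ := by ring
  have hθγ : θ * γ ≤ q := by
    have : θ * γ ≤ 1 * γ := by gcongr
    linarith
  have hcY : 0 ≤ cY κ A := by rw [cY]; positivity
  -- core
  have hcore : ∀ t ∈ Icc (0 : ℝ) A, ‖D.R t (ε t) - D.S t (D.R 0 (ε 0))‖ ≤ cD κ A * q := by
    intro t ht
    refine (D.core hA hκ hθ hγ hεc hmild hint hG hH hY t ht).trans ?_
    have h1 : θ * n0 + A * (θ * (κ * Y + γ) + κ * γ) + κ * γ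
        ≤ (1 + A * (κ * cY κ A + 1 + κ) + κ) * q := by
      have a1 : θ * (κ * Y + γ) + κ * γ ≤ (κ * cY κ A + 1 + κ) * q := by
        have b1 := mul_le_mul_of_nonneg_left hθY hκ0.le
        have b2 := mul_le_mul_of_nonneg_left hγq hκ0.le
        have b3 : (κ * cY κ A + 1 + κ) * q = κ * (cY κ A * q) + q + κ * q := by ring
        have b4 : θ * (κ * Y + γ) + κ * γ = κ * (θ * Y) + θ * γ + κ * γ := by ring
        rw [b3, b4]
        linarith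
      have a2 := mul_le_mul_of_nonneg_left a1 hA
      have a3 := mul_le_mul_of_nonneg_left hγq hκ0.le
      have a4 : (1 + A * (κ * cY κ A + 1 + κ) + κ) * q
          = q + A * ((κ * cY κ A + 1 + κ) * q) + κ * q := by ring
      rw [a4]
      linarith
    have h2 : 0 ≤ (1 + A * (κ * cY κ A + 1 + κ) + κ) * q := by positivity
    calc _ ≤ 2 * (((1 + A * (κ * cY κ A + 1 + κ) + κ) * q) * eA) := by
          gcongr; exact hexp t ht
      _ = cD κ A * q := by rw [cD, ← heA]; ring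
  -- far
  have hfar : ∀ t ∈ Icc (0 : ℝ) A, ‖D.J' t (D.ι (ε t - D.m (ε t)))‖
      ≤ κ * Real.exp (-δ * t) * n0 + cF κ A * q := by
    intro t ht
    refine (D.far hA hκ hθ hδ hγ hmild hint hG hH hY t ht).trans ?_
    have h1 : θ * n0 + A * (θ * Y + κ * γ + θ * (κ * Y + γ)) + κ * γ ≤ cF κ A * q := by
      have a1 : θ * Y + κ * γ + θ * (κ * Y + γ) ≤ (cY κ A + κ + κ * cY κ A + 1) * q := by
        have b1 := mul_le_mul_of_nonneg_left hθY hκ0.le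
        have b2 := mul_le_mul_of_nonneg_left hγq hκ0.le
        have b3 : (cY κ A + κ + κ * cY κ A + 1) * q
            = cY κ A * q + κ * q + κ * (cY κ A * q) + q := by ring
        have b4 : θ * Y + κ * γ + θ * (κ * Y + γ) = θ * Y + κ * γ + κ * (θ * Y) + θ * γ := by ring
        rw [b3, b4]
        linarith
      have a2 := mul_le_mul_of_nonneg_left a1 hA
      have a3 := mul_le_mul_of_nonneg_left hγq hκ0.le
      have a4 : cF κ A * q = q + A * ((cY κ A + κ + κ * cY κ A + 1) * q) + κ * q := by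
        rw [cF]; ring
      rw [a4]
      linarith
    linarith
  -- low order of the remainder
  set z0 := D.R 0 (ε 0) with hz0
  have hz0n : ‖z0‖ ≤ κ * n0 := D.R_le 0 h0A _
  have hPz : ‖D.P z0‖ ≤ κ ^ 2 * n0 := by
    refine (D.P_le _).trans ?_
    calc κ * ‖z0‖ ≤ κ * (κ * n0) := by gcongr
      _ = _ := by ring
  have hlow : ∀ t ∈ Icc (0 : ℝ) A, ‖D.J' t (D.ι (ε t - E t))‖
      ≤ (2 * κ ^ 3 * n0) * Real.exp (-δ * t) + cL κ κ' A * q := by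
    intro t ht
    have h1 : D.ι (ε t - E t) = D.ι (ε t - D.m (ε t))
        + D.Ex t ((D.R t (ε t) - D.S t z0) + D.S t (z0 - D.P z0))
        - (D.ι (E t) - D.Ex t (D.S t (D.P z0))) := by
      rw [map_add (D.Ex t), map_sub (D.Ex t), D.ER t ht, map_sub (D.S t), map_sub (D.Ex t),
        map_sub, map_sub]
      abel
    rw [h1, map_sub, map_add]
    refine (norm_sub_le _ _).trans ?_
    have h2 := hfar t ht
    have h7 : ‖D.J' t (D.ι (E t) - D.Ex t (D.S t (D.P z0)))‖ ≤ cG κ κ' * q := by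
      refine (hEx t ht).trans ?_
      have g1 : κ' * θ * ‖D.P z0‖ ≤ κ' * θ * (κ ^ 2 * n0) := by gcongr
      have g2 : κ' * θ * (κ ^ 2 * n0) = (κ' * κ ^ 2) * (θ * n0) := by ring
      have g3 : (κ' * κ ^ 2) * (θ * n0) ≤ (κ' * κ ^ 2) * q := by gcongr
      have g4 : cG κ κ' * q = q + (κ' * κ ^ 2) * q := by rw [cG]; ring
      linarith
    have h8 := norm_add_le (D.J' t (D.ι (ε t - D.m (ε t))))
      (D.J' t (D.Ex t ((D.R t (ε t) - D.S t z0) + D.S t (z0 - D.P z0))))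
    have h3 : ‖D.J' t (D.Ex t ((D.R t (ε t) - D.S t z0) + D.S t (z0 - D.P z0)))‖
        ≤ κ * (cD κ A * q + κ * Real.exp (-δ * t) * (κ * n0)) := by
      refine (D.Ex_le t ht _).trans ?_
      gcongr
      refine (norm_add_le _ _).trans (add_le_add (hcore t ht) ?_)
      refine (D.dec t ht _).trans ?_
      gcongr
    have h4 : κ * Real.exp (-δ * t) * n0 ≤ κ ^ 3 * Real.exp (-δ * t) * n0 := by
      have : κ ≤ κ ^ 3 := le_self_pow₀ hκ (by norm_num)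
      gcongr
    have h5 : cL κ κ' A * q = cF κ A * q + κ * (cD κ A * q) + cG κ κ' * q := by rw [cL]; ring
    rw [h5]
    have h6 : (2 * κ ^ 3 * n0) * Real.exp (-δ * t)
        = κ ^ 3 * Real.exp (-δ * t) * n0 + κ * (κ * Real.exp (-δ * t) * (κ * n0)) := by ring
    rw [h6]
    linarith
  have hcD : 0 ≤ cD κ A := by rw [cD]; positivity
  have hcF : 0 ≤ cF κ A := by rw [cF]; positivity
  have hcG : 1 ≤ cG κ κ' := by rw [cG]; nlinarith [mul_nonneg hκ' (sq_nonneg κ)]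
  have hcL : 0 ≤ cL κ κ' A := by rw [cL]; positivity
  -- top order
  set γ' := cG κ κ' * q with hγ'
  have hγ'0 : 0 ≤ γ' := by positivity
  have hmildr : ∀ t ∈ Icc (0 : ℝ) A, ε t - E t = D.U t 0 (ε 0 - E 0)
      + (∫ s in (0 : ℝ)..t, D.U t s (D.b s (ε s - E s) + G s)) + (H t - HE t) := by
    intro t ht
    have h1 : ∫ s in (0 : ℝ)..t, D.U t s (D.b s (ε s - E s) + G s)
        = (∫ s in (0 : ℝ)..t, D.U t s (D.b s (ε s) + G s))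
          - ∫ s in (0 : ℝ)..t, D.U t s (D.b s (E s)) := by
      rw [← intervalIntegral.integral_sub (hint t ht) (hEint t ht)]
      congr 1; ext s
      rw [← map_sub, map_sub (D.b s)]; congr 1; abel
    rw [h1, map_sub]
    conv_lhs => rw [hmild t ht, hEmild t ht]
    abel
  have hintr : ∀ t ∈ Icc (0 : ℝ) A,
      IntervalIntegrable (fun s => D.U t s (D.b s (ε s - E s) + G s)) volume 0 t := by
    intro t ht
    have := (hint t ht).sub (hEint t ht)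
    refine this.congr ?_
    intro s _
    show D.U t s (D.b s (ε s) + G s) - D.U t s (D.b s (E s)) = D.U t s (D.b s (ε s - E s) + G s)
    rw [← map_sub, map_sub (D.b s)]; congr 1; abel
  have hHr : ∀ s ∈ Icc (0 : ℝ) A, ‖D.J s (H s - HE s)‖ ≤ γ' := by
    intro s hs
    rw [map_sub]
    refine (norm_sub_le _ _).trans ?_
    have h1 := hH s hs
    have h2 := hHE s hs
    have h3 : κ' * θ * ‖D.P z0‖ ≤ κ' * θ * (κ ^ 2 * n0) := by gcongr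
    have h4 : κ' * θ * (κ ^ 2 * n0) = (κ' * κ ^ 2) * (θ * n0) := by ring
    have h5 : (κ' * κ ^ 2) * (θ * n0) ≤ (κ' * κ ^ 2) * q := by gcongr
    have h6 : γ' = q + (κ' * κ ^ 2) * q := by rw [hγ', cG]; ring
    linarith
  have hp0 : ‖D.Jt 0 (ε 0 - E 0)‖ ≤ (1 + κ ^ 3) * n0 := by
    refine (D.Jt_le 0 h0A _).trans ?_
    rw [map_sub]
    refine (norm_sub_le _ _).trans ?_
    have h1 : κ * ‖D.P z0‖ ≤ κ * (κ ^ 2 * n0) := by gcongr
    have h2 : (1 + κ ^ 3) * n0 = n0 + κ * (κ ^ 2 * n0) := by ring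
    linarith
  have htop := D.top hA hκ hδ hcδ hβ0 hβ hγ hγ'0 (l0 := 2 * κ ^ 3 * n0) (l1 := cL κ κ' A * q)
    (by positivity) (by positivity) (hεc.sub hEc) (hHc.sub hHEc) hmildr hintr hG hHr
    (fun s hs => (D.Jo_le s hs _).trans (hlow s hs)) hp0 A hAA
  have hfin := D.J_le A hAA (ε A - E A)
  have hloA := (D.Jo_le A hAA _).trans (hlow A hAA)
  have hsum : ‖D.Jo (ε A - E A)‖ + ‖D.Jt A (ε A - E A)‖
      ≤ (2 * κ ^ 3 + 2 * ((1 + κ ^ 3) + 2 * κ ^ 4)) * Real.exp (-δ * A) * n0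
        + (cL κ κ' A + 2 * cP κ κ' A + 2 * cG κ κ') * q := by
    have h1 : κ * (cL κ κ' A * q) + (2 * κ * γ' + γ) ≤ cP κ κ' A * q := by
      have : cP κ κ' A * q = κ * (cL κ κ' A * q) + (2 * κ * γ' + q) := by rw [cP, hγ']; ring
      linarith
    have h2 : γ' ≤ 2 * cG κ κ' * q := by
      have : 2 * cG κ κ' * q = γ' + γ' := by rw [hγ']; ring
      linarith
    have h3 : ((1 + κ ^ 3) * n0 + κ * (2 * κ ^ 3 * n0)) * Real.exp (-δ * A)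
        = ((1 + κ ^ 3) + 2 * κ ^ 4) * Real.exp (-δ * A) * n0 := by ring
    rw [h3] at htop
    change ‖D.Jt A (ε A - E A)‖ ≤ _ at htop
    have h4 : (2 * κ ^ 3 + 2 * ((1 + κ ^ 3) + 2 * κ ^ 4)) * Real.exp (-δ * A) * n0
        + (cL κ κ' A + 2 * cP κ κ' A + 2 * cG κ κ') * q
        = (2 * κ ^ 3 * n0) * Real.exp (-δ * A) + cL κ κ' A * q
          + 2 * (((1 + κ ^ 3) + 2 * κ ^ 4) * Real.exp (-δ * A) * n0 + cP κ κ' A * q)
          + 2 * cG κ κ' * q := by ring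
    rw [h4]
    linarith
  calc ‖D.J A (ε A - E A)‖ ≤ κ * (‖D.Jo (ε A - E A)‖ + ‖D.Jt A (ε A - E A)‖) := hfin
    _ ≤ κ * ((2 * κ ^ 3 + 2 * ((1 + κ ^ 3) + 2 * κ ^ 4)) * Real.exp (-δ * A) * n0
        + (cL κ κ' A + 2 * cP κ κ' A + 2 * cG κ κ') * q) := by gcongr
    _ = _ := by rw [cOne, cTwo]; ring

end StepOps

end Vale.Agent.P139.H605
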