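import Vale.Agent.P139.H579.NDefs

/-!
# P139, block N (helper605): the output of the one step analysis

`Step1 d m w Q` : after the time `A` a curve which started `η`-close to the cut-off profile is
`(C₁ e^{-δA} + ε) η`-close to the cut-off of `Q + (symmetry mode of size ≤ C_A η)`.
-/

namespace Vale.Agent.P139.H605

open Vale.Agent.P139.A Vale.Agent.P139.A.WA Vale.Agent.P139.BU Vale.Agent.P139.N

/-- The real combination of the symmetry modes. -/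
noncomputable def modeOf {d : ℕ} (m : ℕ) (w : ℝ) (Q : E d → ℂ) (α : ℝ) (β : Fin d → ℝ) (γ : ℝ)
    (y : E d) : ℂ :=
  (α : ℂ) * phaseMode Q y + ∑ i, (β i : ℂ) * pd i Q y + (γ : ℂ) * timeMode m w Q y

/-- Output of N1/N2. -/
def Step1 (d m : ℕ) (w : ℝ) (Q : E d → ℂ) : Prop :=
  ∃ (K : ℕ) (C₁ δ : ℝ), 0 < C₁ ∧ 0 < δ ∧ ∀ A : ℝ, 0 < A → ∃ CA : ℝ, 0 < CA ∧
    ∀ ε : ℝ, 0 < ε → ∃ ηA : ℝ, 0 < ηA ∧ ∀ η : ℝ, 0 < η → η ≤ ηA →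
      ∃ ℓA : ℝ, 0 < ℓA ∧ ℓA ≤ 1 ∧ ∀ (ℓ : ℝ) (v : ℝ → WA d K), 0 < ℓ → ℓ ≤ ℓA →
        RCurve m w ℓ A v → Nn ℓ K (v 0 - Up K Q ℓ) ≤ η →
        ∃ (α : ℝ) (β : Fin d → ℝ) (γ : ℝ), |α| + ∑ i, |β i| + |γ| ≤ CA * η ∧
          Nn (ℓ * Real.exp (-A / 2)) K
            (v A - Up K (fun y => Q y + modeOf m w Q α β γ y) (ℓ * Real.exp (-A / 2)))
            ≤ (C₁ * Real.exp (-δ * A) + ε) * η

end Vale.Agent.P139.H605
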