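import Vale.Agent.P139.H579.Wop
import Vale.Agent.P139.H579.Cut
import Vale.Agent.P139.H605.Step
import Vale.Agent.P139.H605.Boot
import Vale.Agent.P139.H605.Step1Def

/-!
# P139, block N (helper605): the torus instance of the abstract one step theorem

`TData d m j w Q X` collects the inputs (K1)-(K4), (F), (ST) for the level `j`
(`j+1` derivatives on the torus, `j` derivatives on `R^d`).
-/

open Set MeasureTheory intervalIntegral Filter Topology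

namespace Vale.Agent.P139.H605

open Vale.Agent.P139.A Vale.Agent.P139.A.WA Vale.Agent.P139.H203 Vale.Agent.P139.BU
  Vale.Agent.P139.N

variable {d k : ℕ}

/-! ### Auxiliary facts on the torus -/

theorem conjL_real_smul (r : ℝ) (h : WA d k) : conjL (r • h) = r • conjL h :=
  (conjL (d := d) (k := k)).map_smul r h

theorem real_smul_mul (r : ℝ) (x y : WA d k) : x * (r • y) = r • (x * y) :=
  mul_smul_comm r x y

theorem BW_real_smul (m : ℕ) (W h : WA d k) (r : ℝ) : BW m W (r • h) = r • BW m W h := by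
  unfold BW
  rw [conjL_real_smul, real_smul_mul, real_smul_mul, real_smul_mul, real_smul_mul, ← smul_add,
    smul_comm]

theorem norm_eq_Nn (h : WA d k) : ‖h‖ = Nn 1 k h := by
  rw [norm_eq]
  unfold Nn W
  simp only [one_mul]

/-- The linearised potential as a bounded real linear operator. -/
noncomputable def bL {m : ℕ} (hm : 1 ≤ m) (W : WA d k) : WA d k →L[ℝ] WA d k :=
  LinearMap.mkContinuous
    { toFun := fun h => BW m W h
      map_add' := fun a b => BW_add m W a b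
      map_smul' := fun r a => BW_real_smul m W a r } ((2 * m + 1) * ‖W‖ ^ (2 * m)) (fun h => by
      simp only [LinearMap.coe_mk, AddHom.coe_mk]
      rw [norm_eq_Nn, norm_eq_Nn W, norm_eq_Nn h]
      exact Nn_BW_le zero_le_one le_rfl le_rfl hm W h)

@[simp] theorem bL_apply {m : ℕ} (hm : 1 ≤ m) (W h : WA d k) : bL hm W h = BW m W h := rfl

theorem Uf_shift (a w ℓ t s : ℝ) (v : WA d k) :
    Uf a w ℓ t s v = Uf a w (sc ℓ s) (t - s) 0 v := by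
  ext n
  rw [coef_Uf, coef_Uf]
  congr 1
  unfold ufac
  rw [sc_sq]
  have h1 : ℓ ^ 2 * (Real.exp (-s) - Real.exp (-t))
      = ℓ ^ 2 * Real.exp (-s) * (Real.exp (-0) - Real.exp (-(t - s))) := by
    have : Real.exp (-s) * Real.exp (-(t - s)) = Real.exp (-t) := by
      rw [← Real.exp_add]; congr 1; ring
    rw [mul_assoc, mul_sub (Real.exp (-s)), this, neg_zero, Real.exp_zero, mul_one]
  rw [h1, sub_zero]

theorem sc_shift (ℓ t s : ℝ) : sc (sc ℓ s) (t - s) = sc ℓ t := by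
  rw [sc_sc]; congr 1; ring

/-- The inputs of the one step theorem at the level `j`. -/
structure TData (d m j : ℕ) (w : ℝ) (Q : E d → ℂ) (X : Type*) [NormedAddCommGroup X]
    [NormedSpace ℝ X] where
  R : ℝ → WA d (j + 1) →L[ℝ] X
  Ex : ℝ → X →L[ℝ] WA d j
  S0 : ℝ → X →L[ℝ] X
  S : ℝ → X →L[ℝ] X
  Bx : X →L[ℝ] X
  P : X →L[ℝ] X
  mu : WA d (j + 1)
  κ : ℝ
  C0 : ℝ
  CM : ℝ
  δ : ℝ
  θ : ℝ → ℝ
  one_le : 1 ≤ κ
  CM_nonneg : 0 ≤ CM
  δ_pos : 0 < δ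
  θ_nonneg : ∀ ℓ, 0 ≤ θ ℓ
  θ_lim : Tendsto θ (𝓝[>] 0) (𝓝 0)
  W_le : ∀ ℓ, 0 < ℓ → ℓ ≤ 1 → Nn ℓ (j + 1) (Up (j + 1) Q ℓ) ≤ κ
  W0_le : ∀ ℓ, 0 < ℓ → ℓ ≤ 1 → Nn ℓ 0 (Up (j + 1) Q ℓ) ≤ C0
  W_cont : ContinuousOn (fun ℓ : ℝ => (Up (j + 1) Q ℓ : WA d (j + 1))) (Ioc 0 1)
  R_le : ∀ ℓ, 0 < ℓ → ℓ ≤ 1 → ∀ v, ‖R ℓ v‖ ≤ κ * Nn ℓ (j + 1) v
  R_cont : ∀ v, ContinuousOn (fun ℓ => R ℓ v) (Ioc 0 1)
  Ex_le : ∀ ℓ, 0 < ℓ → ℓ ≤ 1 → ∀ x, Nn ℓ j (Ex ℓ x) ≤ κ * ‖x‖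
  ER : ∀ ℓ, 0 < ℓ → ℓ ≤ 1 → ∀ v, Ex ℓ (R ℓ v) = dn (Nat.le_succ j) (mu * v)
  Rb : ∀ ℓ, 0 < ℓ → ℓ ≤ 1 → ∀ v, R ℓ (BW m (Up (j + 1) Q ℓ) v) = Bx (R ℓ v)
  K3 : ∀ ℓ r, 0 < ℓ → ℓ ≤ 1 → 0 ≤ r → ∀ v,
    ‖R (sc ℓ r) (Uf (aa m) w ℓ r 0 v) - S0 r (R ℓ v)‖ ≤ θ ℓ * Nn ℓ (j + 1) v
  K4 : ∀ ℓ r, 0 < ℓ → ℓ ≤ 1 → 0 ≤ r → ∀ v,
    Nn (sc ℓ r) j (mu * Uf (aa m) w ℓ r 0 v - Uf (aa m) w ℓ r 0 (mu * v))
      ≤ θ ℓ * Nn ℓ (j + 1) v
  Fb : ∀ ℓ, 0 < ℓ → ℓ ≤ 1 → ∀ v,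
    Nn ℓ j (BW m (Up (j + 1) Q ℓ) v - mu * BW m (Up (j + 1) Q ℓ) v) ≤ θ ℓ * Nn ℓ (j + 1) v
  S0_le : ∀ t, 0 ≤ t → ∀ x, ‖S0 t x‖ ≤ ‖x‖
  duh : ∀ t, 0 ≤ t → ∀ x, S t x = S0 t x + ∫ s in (0 : ℝ)..t, S0 (t - s) (Bx (S s x))
  duh_int : ∀ t, 0 ≤ t → ∀ x,
    IntervalIntegrable (fun s => S0 (t - s) (Bx (S s x))) volume 0 t
  dec : ∀ t, 0 ≤ t → ∀ x, ‖S t (x - P x)‖ ≤ κ * Real.exp (-δ * t) * ‖x‖
  contS : ∀ x, ContinuousOn (fun t => S t x) (Ici 0)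

namespace TData

variable {m j : ℕ} {w : ℝ} {Q : E d → ℂ} {X : Type*} [NormedAddCommGroup X] [NormedSpace ℝ X]
  (D : TData d m j w Q X)

/-- The total constant. -/
noncomputable def K1 : ℝ := D.κ + 2 ^ (j + 1) + (2 * m + 1) * D.κ ^ (2 * m)
  + (2 * m + 1) * Cpow (j + 1) * D.κ ^ (2 * m) + (1 + ‖D.mu‖) + ‖D.Bx‖ + ‖D.P‖ + D.CM ^ 2

/-- The order zero bound of the potential. -/
noncomputable def β : ℝ := 2 * (2 * m + 1) * D.C0 ^ (2 * m)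

/-- The decay rate. -/
noncomputable def δ' : ℝ := min D.δ (min (aa m) 1)

/-- Rate of the top order part. -/
noncomputable def cc (m j : ℕ) : ℝ := aa m + ((j + 1 : ℕ) : ℝ) / 2

theorem κ_nonneg : 0 ≤ D.κ := zero_le_one.trans D.one_le

theorem C0_nonneg : 0 ≤ D.C0 :=
  (Nn_nonneg zero_le_one 0 _).trans (D.W0_le 1 one_pos le_rfl)

theorem β_nonneg : 0 ≤ D.β := by
  unfold β
  have := D.C0_nonneg
  positivity

theorem K1_parts : D.κ ≤ D.K1 ∧ (2 : ℝ) ^ (j + 1) ≤ D.K1 ∧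
    (2 * m + 1) * D.κ ^ (2 * m) ≤ D.K1 ∧
    (2 * m + 1) * Cpow (j + 1) * D.κ ^ (2 * m) ≤ D.K1 ∧ 1 + ‖D.mu‖ ≤ D.K1 ∧ ‖D.Bx‖ ≤ D.K1 ∧
    ‖D.P‖ ≤ D.K1 ∧ D.CM ^ 2 ≤ D.K1 := by
  have h1 := D.κ_nonneg
  have h8 := sq_nonneg D.CM
  have h2 : (0 : ℝ) ≤ 2 ^ (j + 1) := by positivity
  have h3 : (0 : ℝ) ≤ (2 * m + 1) * D.κ ^ (2 * m) := by positivity
  have h4 : (0 : ℝ) ≤ (2 * m + 1) * Cpow (j + 1) * D.κ ^ (2 * m) := by
    have := Cpow_nonneg (j + 1)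
    positivity
  have h5 := norm_nonneg D.mu
  have h6 := norm_nonneg D.Bx
  have h7 := norm_nonneg D.P
  unfold K1
  refine ⟨?_, ?_, ?_, ?_, ?_, ?_, ?_, ?_⟩ <;> linarith

theorem one_le_K1 : 1 ≤ D.K1 := D.one_le.trans D.K1_parts.1

theorem δ'_pos (hm : 1 ≤ m) : 0 < D.δ' := by
  unfold δ'
  have := D.δ_pos
  have h2 := aa_pos hm
  exact lt_min this (lt_min h2 one_pos)

/-- Scaled norms at the level `j` of the restriction. -/
theorem scl {ℓ : ℝ} (hℓ : 0 < ℓ) (hℓ1 : ℓ ≤ 1) {t : ℝ} (ht : 0 ≤ t) :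
    0 < sc ℓ t ∧ sc ℓ t ≤ 1 := ⟨sc_pos hℓ t, (sc_le_self hℓ.le ht).trans hℓ1⟩

/-- The operators of the abstract theorem. -/
noncomputable def ops (hm : 1 ≤ m) {ℓ : ℝ} (hℓ : 0 < ℓ) (hℓ1 : ℓ ≤ 1) {A θ0 : ℝ}
    (hθ : ∀ s ∈ Icc (0 : ℝ) A, D.θ (sc ℓ s) ≤ θ0) :
    StepOps (WA d (j + 1)) (WA d j) X (WA d 0) D.K1 D.δ' θ0 (cc m j) D.β A where
  J t := (Jw (sc ℓ t) (j + 1) le_rfl).restrictScalars ℝ
  J' t := (Jw (sc ℓ t) j le_rfl).restrictScalars ℝ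
  Jt t := (Jtp (sc ℓ t) (j + 1) le_rfl).restrictScalars ℝ
  Jo := (Jz (d := d) (k := j + 1)).restrictScalars ℝ
  ι := (dn (Nat.le_succ j)).restrictScalars ℝ
  m := (ContinuousLinearMap.mul ℂ (WA d (j + 1)) D.mu).restrictScalars ℝ
  U t s := (Uf (aa m) w ℓ t s).restrictScalars ℝ
  U' t s := (Uf (aa m) w ℓ t s).restrictScalars ℝ
  b s := bL hm (Up (j + 1) Q (sc ℓ s))
  R s := D.R (sc ℓ s)
  Ex s := D.Ex (sc ℓ s)
  S0 := D.S0
  S := D.S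
  Bx := D.Bx
  P := D.P
  J_le := by
    intro t ht v
    obtain ⟨h0, h1⟩ := scl hℓ hℓ1 ht.1
    simp only [ContinuousLinearMap.coe_restrictScalars']
    rw [norm_Jw h0.le h1, norm_Jz (sc ℓ t), norm_Jtp h0.le h1]
    refine (Nn_le_Tn h0.le h1 le_rfl v).trans ?_
    have h2 := Nn_nonneg h0.le 0 v
    have h3 := Tn_nonneg h0.le (j + 1) v
    exact mul_le_mul_of_nonneg_right D.K1_parts.2.1 (by positivity)
  Jo_le := by
    intro t ht v
    obtain ⟨h0, h1⟩ := scl hℓ hℓ1 ht.1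
    simp only [ContinuousLinearMap.coe_restrictScalars']
    rw [norm_Jw h0.le h1, norm_Jz (sc ℓ t), Nn_dn]
    exact Nn_mono_right h0.le h1 (Nat.zero_le j) (Nat.le_succ j) v
  Jt_le := by
    intro t ht v
    obtain ⟨h0, h1⟩ := scl hℓ hℓ1 ht.1
    simp only [ContinuousLinearMap.coe_restrictScalars']
    rw [norm_Jw h0.le h1, norm_Jtp h0.le h1]
    exact Tn_le_Nn h0.le h1 le_rfl v
  J'_le := by
    intro t ht v
    obtain ⟨h0, h1⟩ := scl hℓ hℓ1 ht.1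
    simp only [ContinuousLinearMap.coe_restrictScalars']
    rw [norm_Jw h0.le h1, norm_Jw h0.le h1, Nn_dn]
    exact Nn_mono_right h0.le h1 (Nat.le_succ j) le_rfl v
  U_le := by
    intro t ht s hs v
    obtain ⟨h0, h1⟩ := scl hℓ hℓ1 ht.1
    obtain ⟨g0, g1⟩ := scl hℓ hℓ1 hs.1
    simp only [ContinuousLinearMap.coe_restrictScalars']
    rw [norm_Jw h0.le h1, norm_Jw g0.le g1]
    refine (Nn_Uf_le hℓ.le hℓ1 le_rfl hs.1 hs.2 v).trans ?_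
    have h2 : Real.exp (-(aa m * (t - s))) ≤ 1 := by
      apply Real.exp_le_one_iff.2
      have := mul_nonneg (aa_pos hm).le (sub_nonneg.2 hs.2)
      linarith
    have h3 := Nn_nonneg g0.le (j + 1) v
    nlinarith
  Ut_le := by
    intro t ht s hs v
    obtain ⟨h0, h1⟩ := scl hℓ hℓ1 ht.1
    obtain ⟨g0, g1⟩ := scl hℓ hℓ1 hs.1
    simp only [ContinuousLinearMap.coe_restrictScalars']
    rw [norm_Jtp h0.le h1, norm_Jtp g0.le g1, Tn_Uf]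
    apply le_of_eq
    unfold cc
    congr 2
    ring
  U'_le := by
    intro t ht s hs v
    obtain ⟨h0, h1⟩ := scl hℓ hℓ1 ht.1
    obtain ⟨g0, g1⟩ := scl hℓ hℓ1 hs.1
    simp only [ContinuousLinearMap.coe_restrictScalars']
    rw [norm_Jw h0.le h1, norm_Jw g0.le g1]
    refine (Nn_Uf_le hℓ.le hℓ1 le_rfl hs.1 hs.2 v).trans ?_
    have h2 : Real.exp (-(aa m * (t - s))) ≤ Real.exp (-D.δ' * (t - s)) := by
      apply Real.exp_le_exp.2
      have h4 : D.δ' ≤ aa m := (min_le_right _ _).trans (min_le_left _ _)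
      have := mul_le_mul_of_nonneg_right h4 (sub_nonneg.2 hs.2)
      linarith
    exact mul_le_mul_of_nonneg_right h2 (Nn_nonneg g0.le j v)
  b_le := by
    intro s hs v
    obtain ⟨g0, g1⟩ := scl hℓ hℓ1 hs.1
    simp only [ContinuousLinearMap.coe_restrictScalars', bL_apply]
    rw [norm_Jw g0.le g1, norm_Jw g0.le g1]
    refine (Nn_BW_le g0.le g1 le_rfl hm _ v).trans ?_
    refine mul_le_mul_of_nonneg_right ?_ (Nn_nonneg g0.le _ v)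
    refine le_trans ?_ D.K1_parts.2.2.1
    have := Nn_nonneg g0.le (j + 1) (Up (j + 1) Q (sc ℓ s) : WA d (j + 1))
    have h2 := D.W_le _ g0 g1
    gcongr
  bt_le := by
    intro s hs v
    obtain ⟨g0, g1⟩ := scl hℓ hℓ1 hs.1
    simp only [ContinuousLinearMap.coe_restrictScalars', bL_apply]
    rw [norm_Jtp g0.le g1, norm_Jtp g0.le g1, norm_Jz (sc ℓ s)]
    refine (Tn_BW_le g0.le g1 le_rfl hm _ v).trans ?_
    have a1 := Nn_nonneg g0.le (j + 1) (Up (j + 1) Q (sc ℓ s) : WA d (j + 1))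
    have a2 := Nn_nonneg g0.le 0 (Up (j + 1) Q (sc ℓ s) : WA d (j + 1))
    have a3 := D.W_le _ g0 g1
    have a4 := D.W0_le _ g0 g1
    have a5 := Tn_nonneg g0.le (j + 1) v
    have a6 := Nn_nonneg g0.le 0 v
    have a7 := Cpow_nonneg (j + 1)
    refine add_le_add ?_ ?_
    · unfold β
      gcongr
    · refine mul_le_mul_of_nonneg_right ?_ a6
      refine le_trans ?_ D.K1_parts.2.2.2.1
      gcongr
  R_le := by
    intro t ht v
    obtain ⟨h0, h1⟩ := scl hℓ hℓ1 ht.1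
    simp only [ContinuousLinearMap.coe_restrictScalars']
    rw [norm_Jw h0.le h1]
    refine (D.R_le _ h0 h1 v).trans ?_
    exact mul_le_mul_of_nonneg_right D.K1_parts.1 (Nn_nonneg h0.le _ v)
  Ex_le := by
    intro t ht x
    obtain ⟨h0, h1⟩ := scl hℓ hℓ1 ht.1
    simp only [ContinuousLinearMap.coe_restrictScalars']
    rw [norm_Jw h0.le h1]
    refine (D.Ex_le _ h0 h1 x).trans ?_
    exact mul_le_mul_of_nonneg_right D.K1_parts.1 (norm_nonneg _)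
  ER := by
    intro t ht v
    obtain ⟨h0, h1⟩ := scl hℓ hℓ1 ht.1
    simp only [ContinuousLinearMap.coe_restrictScalars', ContinuousLinearMap.mul_apply']
    exact D.ER _ h0 h1 v
  far_le := by
    intro s hs v
    obtain ⟨g0, g1⟩ := scl hℓ hℓ1 hs.1
    simp only [ContinuousLinearMap.coe_restrictScalars', ContinuousLinearMap.mul_apply']
    rw [norm_Jw g0.le g1, norm_Jw g0.le g1, Nn_dn]
    have hj : j ≤ j + 1 := Nat.le_succ j
    have a1 := Nn_sub_le g0.le g1 hj v (D.mu * v)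
    have a2 := Nn_mul_le g0.le g1 hj D.mu v
    have a3 := Nn_le_norm g0.le g1 hj D.mu
    have a4 := Nn_mono_right g0.le g1 hj le_rfl v
    have a5 := Nn_nonneg g0.le j v
    have a6 := Nn_nonneg g0.le j D.mu
    have a7 : (1 + ‖D.mu‖) * Nn (sc ℓ s) j v ≤ D.K1 * Nn (sc ℓ s) (j + 1) v := by
      have := D.K1_parts.2.2.2.2.1
      have h0 : (0 : ℝ) ≤ 1 + ‖D.mu‖ := by positivity
      exact mul_le_mul this a4 a5 (h0.trans this)
    have a8 : Nn (sc ℓ s) j D.mu * Nn (sc ℓ s) j v ≤ ‖D.mu‖ * Nn (sc ℓ s) j v :=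
      mul_le_mul_of_nonneg_right a3 a5
    linarith
  Rb := by
    intro s hs v
    obtain ⟨g0, g1⟩ := scl hℓ hℓ1 hs.1
    exact D.Rb _ g0 g1 v
  S0_le := fun t ht x => D.S0_le t ht.1 x
  Bx_le := fun x => (D.Bx.le_opNorm x).trans
    (mul_le_mul_of_nonneg_right D.K1_parts.2.2.2.2.2.1 (norm_nonneg _))
  C1 := by
    intro t ht s hs v
    obtain ⟨g0, g1⟩ := scl hℓ hℓ1 hs.1
    simp only [ContinuousLinearMap.coe_restrictScalars']
    rw [norm_Jw g0.le g1, Uf_shift]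
    have h2 := D.K3 (sc ℓ s) (t - s) g0 g1 (sub_nonneg.2 hs.2) v
    rw [sc_shift] at h2
    refine h2.trans ?_
    exact mul_le_mul_of_nonneg_right (hθ s ⟨hs.1, hs.2.trans ht.2⟩) (Nn_nonneg g0.le _ v)
  C2 := by
    intro t ht s hs v
    obtain ⟨h0, h1⟩ := scl hℓ hℓ1 ht.1
    obtain ⟨g0, g1⟩ := scl hℓ hℓ1 hs.1
    simp only [ContinuousLinearMap.coe_restrictScalars', ContinuousLinearMap.mul_apply']
    rw [norm_Jw h0.le h1, norm_Jw g0.le g1, ← dn_Uf, ← map_sub, Nn_dn]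
    have h2 := D.K4 (sc ℓ s) (t - s) g0 g1 (sub_nonneg.2 hs.2) v
    rw [sc_shift, ← Uf_shift, ← Uf_shift] at h2
    have h3 : Uf (aa m) w ℓ t s v - D.mu * Uf (aa m) w ℓ t s v - Uf (aa m) w ℓ t s (v - D.mu * v)
        = -(D.mu * Uf (aa m) w ℓ t s v - Uf (aa m) w ℓ t s (D.mu * v)) := by
      rw [map_sub]; abel
    rw [h3, Nn_neg]
    refine h2.trans ?_
    exact mul_le_mul_of_nonneg_right (hθ s ⟨hs.1, hs.2.trans ht.2⟩) (Nn_nonneg g0.le _ v)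
  Fb := by
    intro s hs v
    obtain ⟨g0, g1⟩ := scl hℓ hℓ1 hs.1
    simp only [ContinuousLinearMap.coe_restrictScalars', ContinuousLinearMap.mul_apply', bL_apply]
    rw [norm_Jw g0.le g1, norm_Jw g0.le g1, Nn_dn]
    refine (D.Fb _ g0 g1 v).trans ?_
    exact mul_le_mul_of_nonneg_right (hθ s hs) (Nn_nonneg g0.le _ v)
  duh := fun t ht x => D.duh t ht.1 x
  duh_int := fun t ht x => D.duh_int t ht.1 x
  dec := by
    intro t ht x
    refine (D.dec t ht.1 x).trans ?_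
    have h1 : Real.exp (-D.δ * t) ≤ Real.exp (-D.δ' * t) := by
      apply Real.exp_le_exp.2
      have h4 : D.δ' ≤ D.δ := min_le_left _ _
      have := mul_le_mul_of_nonneg_right h4 ht.1
      linarith
    have h2 := D.K1_parts.1
    have h3 := D.κ_nonneg
    have h4 := D.one_le_K1
    gcongr
  P_le := fun x => (D.P.le_opNorm x).trans
    (mul_le_mul_of_nonneg_right D.K1_parts.2.2.2.2.2.2.1 (norm_nonneg _))
  contJ := by
    intro f hf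
    exact continuousOn_Jw le_rfl (by unfold sc; fun_prop) hf
  contJt := by
    intro f hf
    exact continuousOn_Jtp le_rfl (by unfold sc; fun_prop) hf
  contR := by
    intro f hf t0 ht0
    obtain ⟨h0, h1⟩ := scl hℓ hℓ1 ht0.1
    rw [ContinuousWithinAt, tendsto_iff_norm_sub_tendsto_zero]
    have e1 : Tendsto (fun t => ‖f t - f t0‖) (𝓝[Icc 0 A] t0) (𝓝 0) :=
      tendsto_iff_norm_sub_tendsto_zero.1 (hf t0 ht0)
    have hsc : ContinuousOn (fun t => sc ℓ t) (Icc 0 A) := by unfold sc; fun_prop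
    have e2 : ContinuousOn (fun t => D.R (sc ℓ t) (f t0)) (Icc 0 A) :=
      (D.R_cont (f t0)).comp hsc fun t ht => scl hℓ hℓ1 ht.1
    have e3 : Tendsto (fun t => ‖D.R (sc ℓ t) (f t0) - D.R (sc ℓ t0) (f t0)‖) (𝓝[Icc 0 A] t0)
        (𝓝 0) := tendsto_iff_norm_sub_tendsto_zero.1 (e2 t0 ht0)
    have e4 := (e1.const_mul D.κ).add e3
    rw [mul_zero, add_zero] at e4
    refine squeeze_zero' (Eventually.of_forall fun t => norm_nonneg _) ?_ e4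
    filter_upwards [self_mem_nhdsWithin] with t ht
    obtain ⟨g0, g1⟩ := scl hℓ hℓ1 ht.1
    have e5 : D.R (sc ℓ t) (f t) - D.R (sc ℓ t0) (f t0)
        = D.R (sc ℓ t) (f t - f t0) + (D.R (sc ℓ t) (f t0) - D.R (sc ℓ t0) (f t0)) := by
      rw [map_sub]; abel
    rw [e5]
    refine (norm_add_le _ _).trans (add_le_add ?_ le_rfl)
    refine (D.R_le _ g0 g1 _).trans ?_
    exact mul_le_mul_of_nonneg_left (Nn_le_norm g0.le g1 le_rfl _) D.κ_nonneg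
  contS := fun x => (D.contS x).mono fun t ht => ht.1

end TData

end Vale.Agent.P139.H605
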