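import Vale.Agent.P139.H605.OneStep
import Vale.Agent.P139.H308.TR2
import Vale.Agent.P139.H730.STPack

/-!
# P139, block N (helper605): wiring of the one step theorem

`TData` from 308's `TorusPart` and 730's `STData`; `ModeMatch`, `ModeUp`; the final theorem
`step1_of` reduces `Step1` to the two mild residual statements.
-/

open Set MeasureTheory intervalIntegral Filter Topology
open scoped ComplexConjugate

namespace Vale.Agent.P139.H605

open Vale.Agent.P139.A Vale.Agent.P139.A.WA Vale.Agent.P139.H203 Vale.Agent.P139.BU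
  Vale.Agent.P139.N

variable {d m j : ℕ} {w : ℝ} {Q : E d → ℂ}

/-- `modeUp`, linearity and boundedness of the cut-off modes. -/
theorem modeUp (hm : 1 ≤ m) (hQ : IsProfile d m w Q) (K : ℕ) :
    ∃ C : ℝ, 0 ≤ C ∧ ModeUp d m K w Q C := by
  obtain ⟨C, hC, H⟩ := H201.Nn_modeOf_le (k := K) (j := K) H201.cutf_cA hm hQ le_rfl
  obtain ⟨CQ, hCQ⟩ := H201.rep_Q hm hQ K
  refine ⟨C, hC.le, ⟨fun ℓ h0 h1 α β γ => H ℓ h0 h1 α β γ, fun ℓ h0 h1 α β γ => ?_⟩⟩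
  have h2 := H201.Loc_rep H201.cutf_cA hCQ h0 h1
  have h3 := (H201.modeOf_loc (k := K) (j := K) H201.cutf_cA hm hQ le_rfl h0 h1 α β γ).1
  unfold Up
  rw [(h2.add h3).2]
  congr 1
  ext x
  ring

/-- Larger constants are allowed. -/
theorem ModeUp.mono {K : ℕ} {C C' : ℝ} (h : ModeUp d m K w Q C) (hC : C ≤ C') :
    ModeUp d m K w Q C' :=
  ⟨fun ℓ h0 h1 α β γ => (h.le ℓ h0 h1 α β γ).trans
    (mul_le_mul_of_nonneg_right hC (msz_nonneg α β γ)), h.add⟩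

section

variable {V₁ V₂ : X1 d j} {κ : ℝ} {θ : ℝ → ℝ}

/-- The integrability of the Duhamel term. -/
theorem duh_integrable {X : Type*} [NormedAddCommGroup X] [NormedSpace ℂ X] [CompleteSpace X]
    {S₀ S : ℝ → X →L[ℂ] X} {B : X →L[ℂ] X} (h : H42.IsPert S₀ B S) {t : ℝ} (ht : 0 ≤ t) (x : X) :
    IntervalIntegrable (fun s => S₀ (t - s) (B (S s x))) volume 0 t := by
  have h1 : ContinuousOn (fun s : ℝ => B (S s x)) (Icc 0 t) :=
    B.continuous.comp_continuousOn ((h.sg.cont x).mono fun s hs => hs.1)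
  have h2 : ContinuousOn (fun s : ℝ => S₀ (max (t - s) 0) (B (S s x))) (Icc 0 t) :=
    h.sg₀.cont2.comp_continuousOn ((continuousOn_const.sub continuousOn_id).prodMk h1)
  have h3 : ContinuousOn (fun s : ℝ => S₀ (t - s) (B (S s x))) (Icc 0 t) := by
    refine h2.congr fun s hs => ?_
    show S₀ (t - s) (B (S s x)) = S₀ (max (t - s) 0) (B (S s x))
    rw [max_eq_left (by linarith [hs.2])]
  apply ContinuousOn.intervalIntegrable
  rwa [uIcc_of_le ht]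

/-- The full input of the one step theorem. -/
noncomputable def tdata (TP : L.TorusPart d m j w Q κ θ)
    (ST : H730.STData m w Q V₁ V₂) (h1 : ∀ y, ev V₁ y = W1 m (Q y))
    (h2 : ∀ y, ev V₂ y = W2 m (Q y)) {C0 : ℝ}
    (hC0 : ∀ ℓ : ℝ, 0 < ℓ → ℓ ≤ 1 → Nn ℓ 0 (Up (j + 1) Q ℓ) ≤ C0) {CM : ℝ} (hCM : 0 ≤ CM) :
    TData d m j w Q (X1 d j × X1 d j) where
  R := L.Rp (L.c1S d) j
  Ex := L.ExP d j
  S0 := L.S0R d m j w
  S t := (ST.S t).restrictScalars ℝ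
  Bx := (H42.BX zero_le_one m V₁ V₂).restrictScalars ℝ
  P := ST.P.restrictScalars ℝ
  mu := per (j + 1) c2
  κ := max κ ST.C
  C0 := C0
  CM := max CM ST.C
  δ := ST.δ
  θ := θ
  one_le := TP.one_le.trans (le_max_left _ _)
  CM_nonneg := hCM.trans (le_max_left _ _)
  δ_pos := ST.δ_pos
  θ_nonneg := TP.θ_nonneg
  θ_lim := TP.θ_lim
  W_le := fun ℓ h0 h1 => (TP.W_le ℓ h0 h1).trans (le_max_left _ _)
  W0_le := hC0
  W_cont := TP.W_cont
  R_le := fun ℓ h0 h1 v => (TP.R_le ℓ h0 h1 v).trans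
    (mul_le_mul_of_nonneg_right (le_max_left _ _) (Nn_nonneg h0.le _ v))
  R_cont := TP.R_cont
  Ex_le := fun ℓ h0 h1 x => (TP.Ex_le ℓ h0 h1 x).trans
    (mul_le_mul_of_nonneg_right (le_max_left _ _) (norm_nonneg x))
  ER := TP.ER
  Rb := TP.Rb V₁ V₂ h1 h2
  K3 := TP.K3
  K4 := TP.K4
  Fb := TP.Fb
  S0_le := fun t ht x => L.norm_S0R_le_one m j w ht x
  duh := fun t ht x => ST.pert.duh x t ht
  duh_int := fun t ht x => duh_integrable ST.pert ht x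
  dec := fun t ht x => (ST.dec t ht x).trans (by
    have := le_max_right κ ST.C
    gcongr)
  contS := fun x => ST.pert.sg.cont x

/-- The projection of a restriction is a real mode, with the explicit flow. -/
theorem modeMatch (hm : 1 ≤ m) (hQ : IsProfile d m w Q) (TP : L.TorusPart d m j w Q κ θ)
    (ST : H730.STData m w Q V₁ V₂) (h1 : ∀ y, ev V₁ y = W1 m (Q y))
    (h2 : ∀ y, ev V₂ y = W2 m (Q y)) {C0 : ℝ}
    (hC0 : ∀ ℓ : ℝ, 0 < ℓ → ℓ ≤ 1 → Nn ℓ 0 (Up (j + 1) Q ℓ) ≤ C0) {CM : ℝ} (hCM : 0 ≤ CM) :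
    ModeMatch (tdata TP ST h1 h2 hC0 hCM) := by
  intro A hA ε hε
  obtain ⟨θ', hθ', H⟩ := H201.modeOf_mismatch (k := j + 1) (j := j) hm hQ (Nat.le_succ j)
  set C := max CM ST.C with hC
  have hC0' : 0 ≤ C := hCM.trans (le_max_left _ _)
  set ε' := ε / (Real.exp A * (C + 1)) with hε'
  have hε'0 : 0 < ε' := by positivity
  obtain ⟨r, hr, hr'⟩ : ∃ r : ℝ, 0 < r ∧ ∀ ℓ, 0 < ℓ → ℓ ≤ r → θ' ℓ ≤ ε' := by
    have h3 := hθ'.eventually (Iio_mem_nhds hε'0)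
    rw [eventually_nhdsWithin_iff, Metric.eventually_nhds_iff] at h3
    obtain ⟨r, hr, h4⟩ := h3
    refine ⟨r / 2, by positivity, fun ℓ h5 h6 => ?_⟩
    have h7 := h4 (y := ℓ) (by rw [Real.dist_eq, sub_zero, abs_of_pos h5]; linarith) h5
    exact le_of_lt h7
  refine ⟨min 1 r, lt_min one_pos hr, fun ℓ hℓ hℓr v => ?_⟩
  simp only [le_min_iff] at hℓr
  obtain ⟨α, β, γ, hsz, hfl⟩ := ST.modes (L.Rp (L.c1S d) j ℓ v) (L.JX_Rp _ _ _ _)
  have hP0 : 0 ≤ ‖ST.P (L.Rp (L.c1S d) j ℓ v)‖ := norm_nonneg _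
  have hsz' : msz α β γ ≤ C * ‖ST.P (L.Rp (L.c1S d) j ℓ v)‖ :=
    le_trans hsz (mul_le_mul_of_nonneg_right (le_max_right _ _) hP0)
  refine ⟨α, β, γ, hsz', fun t ht => ?_⟩
  obtain ⟨s0, s1⟩ := TData.scl hℓ hℓr.1 ht.1
  have h5 := H (sc ℓ t) s0 s1 α (fun i => Real.exp (t / 2) * β i) (Real.exp t * γ)
    (ST.S t (ST.P (L.Rp (L.c1S d) j ℓ v))).1 (fun y => (hfl t ht.1 y).1)
  have h6 : θ' (sc ℓ t) ≤ ε' := hr' _ s0 ((sc_le_self hℓ.le ht.1).trans hℓr.2)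
  have e1 : 1 ≤ Real.exp (t / 2) := Real.one_le_exp (by have := ht.1; positivity)
  have e2 : Real.exp (t / 2) ≤ Real.exp A := Real.exp_le_exp.2 (by linarith [ht.1, ht.2])
  have e2' : Real.exp t ≤ Real.exp A := Real.exp_le_exp.2 ht.2
  have e3 : 1 ≤ Real.exp A := e1.trans e2
  have h7 : |α| + ∑ i, |Real.exp (t / 2) * β i| + |Real.exp t * γ| ≤ Real.exp A * msz α β γ := by
    unfold msz
    rw [mul_add, mul_add]
    refine add_le_add (add_le_add ?_ ?_) ?_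
    · nlinarith [abs_nonneg α]
    · rw [Finset.mul_sum]
      refine Finset.sum_le_sum fun i _ => ?_
      rw [abs_mul, abs_of_pos (Real.exp_pos _)]
      gcongr
    · rw [abs_mul, abs_of_pos (Real.exp_pos _)]
      gcongr
  have h8 : 0 ≤ |α| + ∑ i, |Real.exp (t / 2) * β i| + |Real.exp t * γ| := by positivity
  refine h5.trans ?_
  have h9 := msz_nonneg α β γ
  calc θ' (sc ℓ t) * (|α| + ∑ i, |Real.exp (t / 2) * β i| + |Real.exp t * γ|)
      ≤ ε' * (Real.exp A * msz α β γ) := mul_le_mul h6 h7 h8 hε'0.le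
    _ ≤ ε' * (Real.exp A * (C * ‖ST.P (L.Rp (L.c1S d) j ℓ v)‖)) := by gcongr
    _ ≤ ε' * (Real.exp A * ((C + 1) * ‖ST.P (L.Rp (L.c1S d) j ℓ v)‖)) := by gcongr; linarith
    _ = ε * ‖ST.P (L.Rp (L.c1S d) j ℓ v)‖ := by
      rw [hε']
      field_simp

end

/-- **The one step theorem for stable profiles**, given the mild residual statements. -/
theorem step1_of (hm : 1 ≤ m) {K : ℕ} (hQ : IsProfile d m w Q)
    (hS : ModeStable (d := d) m K w Q)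
    (hMP : ∀ k : ℕ, MildProfile d m k w Q) (hMM : ∀ k : ℕ, MildModes d m k w Q) :
    Step1 d m w Q := by
  obtain ⟨s₀, hs2, hsK, hST⟩ := H730.exists_stData hm hQ hS
  obtain ⟨C0, hC00, hC0⟩ := L.exists_C0 hm hQ
  -- the level
  obtain ⟨n, hn⟩ := exists_nat_ge (4 + 4 * (2 * (2 * m + 1) * C0 ^ (2 * m)))
  set j := max s₀ n with hj
  obtain ⟨V₁, V₂, h1, h2, ⟨ST⟩⟩ := hST j (le_max_left _ _)
  obtain ⟨κ, θ, TP⟩ := L.torusPart hm hQ j
  obtain ⟨CM, hCM, hMU⟩ := modeUp hm hQ (j + 1)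
  set D := tdata TP ST h1 h2 (C0 := C0) (fun ℓ h0 h1 => hC0 (j + 1) ℓ h0 h1) hCM with hD
  refine step1_of_tdata hm D ?_ (hMP _) (hMM _) (hMU.mono (le_max_left _ _))
    (modeMatch hm hQ TP ST h1 h2 (fun ℓ h0 h1 => hC0 (j + 1) ℓ h0 h1) hCM)
  have h3 : D.β = 2 * (2 * m + 1) * C0 ^ (2 * m) := rfl
  rw [h3]
  unfold TData.cc
  have h4 := (aa_pos hm).le
  have h5 : (n : ℝ) ≤ (j : ℝ) := by exact_mod_cast le_max_right s₀ n
  push_cast
  linarith

end Vale.Agent.P139.H605
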