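import Mathlib.Analysis.Calculus.FDeriv.Basic
import Mathlib.MeasureTheory.Integral.IntervalIntegral.Basic
import Mathlib.MeasureTheory.Integral.IntervalIntegral.FundThmCalculus
import Mathlib.Analysis.SpecialFunctions.Integrals.Basic

/-!
Gronwall type lemmas in integral form (helper605, block N1 of P139).
-/

open Set MeasureTheory intervalIntegral

namespace Vale.Agent.P139.H605

/-- A comparison lemma for convolution inequalities. -/
theorem conv_bound {A : ℝ} (hA : 0 ≤ A) {y φ : ℝ → ℝ} (hy : ContinuousOn y (Icc 0 A))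
    (hφ : ContinuousOn φ (Icc 0 A)) (hpos : ∀ t ∈ Icc (0 : ℝ) A, 0 < φ t) {k : ℝ → ℝ → ℝ}
    (hk : ∀ t ∈ Icc (0 : ℝ) A, ∀ s ∈ Icc (0 : ℝ) t, 0 ≤ k t s)
    (hkc : ∀ t ∈ Icc (0 : ℝ) A, ContinuousOn (k t) (Icc 0 t))
    (h1 : ∀ t ∈ Icc (0 : ℝ) A, ∫ s in (0 : ℝ)..t, k t s * φ s ≤ φ t / 2)
    (h2 : ∀ t ∈ Icc (0 : ℝ) A, y t ≤ φ t + ∫ s in (0 : ℝ)..t, k t s * y s) :
    ∀ t ∈ Icc (0 : ℝ) A, y t ≤ 2 * φ t := by
  have hne : (Icc (0 : ℝ) A).Nonempty := ⟨0, le_rfl, hA⟩
  have hq : ContinuousOn (fun t => y t / φ t) (Icc 0 A) :=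
    hy.div hφ fun t ht => (hpos t ht).ne'
  obtain ⟨T, hT, hmax⟩ := isCompact_Icc.exists_isMaxOn hne hq
  set M := y T / φ T with hM
  have hyM : ∀ s ∈ Icc (0 : ℝ) A, y s ≤ M * φ s := by
    intro s hs
    have := hmax hs
    have h3 : y s / φ s ≤ M := this
    rwa [div_le_iff₀ (hpos s hs)] at h3
  have hM2 : M ≤ 2 := by
    by_contra hcon
    push Not at hcon
    have hM0 : 0 ≤ M := by linarith
    have hsub : Icc (0 : ℝ) T ⊆ Icc 0 A := Icc_subset_Icc le_rfl hT.2
    have e1 : ∫ s in (0 : ℝ)..T, k T s * y s ≤ ∫ s in (0 : ℝ)..T, M * (k T s * φ s) := by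
      apply integral_mono_on hT.1
      · apply ContinuousOn.intervalIntegrable
        rw [uIcc_of_le hT.1]
        exact (hkc T hT).mul (hy.mono hsub)
      · apply ContinuousOn.intervalIntegrable
        rw [uIcc_of_le hT.1]
        exact continuousOn_const.mul ((hkc T hT).mul (hφ.mono hsub))
      · intro s hs
        have := mul_le_mul_of_nonneg_left (hyM s (hsub hs)) (hk T hT s hs)
        linarith [this, show k T s * (M * φ s) = M * (k T s * φ s) by ring]
    rw [intervalIntegral.integral_const_mul] at e1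
    have e2 := mul_le_mul_of_nonneg_left (h1 T hT) hM0
    have e3 := h2 T hT
    have e4 : y T = M * φ T := by
      rw [hM]; field_simp [(hpos T hT).ne']
    have e5 := hpos T hT
    nlinarith
  intro t ht
  have := hyM t ht
  have h5 := hpos t ht
  nlinarith

theorem integral_exp_mul (L t : ℝ) (hL : L ≠ 0) :
    ∫ s in (0 : ℝ)..t, Real.exp (L * s) = (Real.exp (L * t) - 1) / L := by
  rw [intervalIntegral.integral_comp_mul_left (fun x => Real.exp x) hL, integral_exp]
  simp [div_eq_inv_mul]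

/-- Crude Gronwall: `y ≤ c + L ∫ y` gives `y ≤ 2 c exp (2 L t)`. -/
theorem gronwall2 {A : ℝ} (hA : 0 ≤ A) {y : ℝ → ℝ} (hy : ContinuousOn y (Icc 0 A))
    {c L : ℝ} (hc : 0 < c) (hL : 0 < L)
    (h : ∀ t ∈ Icc (0 : ℝ) A, y t ≤ c + ∫ s in (0 : ℝ)..t, L * y s) :
    ∀ t ∈ Icc (0 : ℝ) A, y t ≤ 2 * (c * Real.exp (2 * L * t)) := by
  refine conv_bound hA hy (φ := fun t => c * Real.exp (2 * L * t)) (by fun_prop)
    (fun t _ => by positivity) (k := fun _ _ => L) (fun _ _ _ _ => hL.le)
    (fun _ _ => continuousOn_const) ?_ ?_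
  · intro t ht
    rw [intervalIntegral.integral_const_mul, intervalIntegral.integral_const_mul,
      integral_exp_mul _ _ (by positivity)]
    have : L * (c * ((Real.exp (2 * L * t) - 1) / (2 * L))) = c * (Real.exp (2 * L * t) - 1) / 2 := by
      field_simp
    rw [this]
    linarith
  · intro t ht
    have h1 := h t ht
    have h2 : c ≤ c * Real.exp (2 * L * t) := by
      have : 1 ≤ Real.exp (2 * L * t) := Real.one_le_exp (by have := ht.1; positivity)
      nlinarith
    linarith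

/-- The weighted convolution integral. -/
theorem conv_exp {c δ p q t : ℝ} (hp : 0 ≤ p) (hq : 0 ≤ q) (hδ : 0 ≤ δ) (hc : δ < c) (ht : 0 ≤ t) :
    ∫ s in (0 : ℝ)..t, Real.exp (-c * (t - s)) * (p * Real.exp (-δ * s) + q)
      ≤ (p * Real.exp (-δ * t) + q) / (c - δ) := by
  have hcd : 0 < c - δ := by linarith
  have hle : ∀ s ∈ Icc (0 : ℝ) t, Real.exp (-c * (t - s)) * (p * Real.exp (-δ * s) + q)
      ≤ (p * Real.exp (-δ * t) + q) * Real.exp (-(c - δ) * (t - s)) := by
    intro s hs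
    have e1 : Real.exp (-c * (t - s)) * Real.exp (-δ * s)
        = Real.exp (-δ * t) * Real.exp (-(c - δ) * (t - s)) := by
      rw [← Real.exp_add, ← Real.exp_add]; congr 1; ring
    have e2 : Real.exp (-c * (t - s)) ≤ Real.exp (-(c - δ) * (t - s)) := by
      apply Real.exp_le_exp.2
      have : 0 ≤ t - s := by linarith [hs.2]
      nlinarith
    calc Real.exp (-c * (t - s)) * (p * Real.exp (-δ * s) + q)
        = p * (Real.exp (-c * (t - s)) * Real.exp (-δ * s)) + q * Real.exp (-c * (t - s)) := by ring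
      _ ≤ p * (Real.exp (-δ * t) * Real.exp (-(c - δ) * (t - s)))
            + q * Real.exp (-(c - δ) * (t - s)) := by
          rw [e1]; gcongr
      _ = _ := by ring
  have hint : ∫ s in (0 : ℝ)..t, (p * Real.exp (-δ * t) + q) * Real.exp (-(c - δ) * (t - s))
      ≤ (p * Real.exp (-δ * t) + q) / (c - δ) := by
    rw [intervalIntegral.integral_const_mul]
    have e3 : ∫ s in (0 : ℝ)..t, Real.exp (-(c - δ) * (t - s))
        = Real.exp (-(c - δ) * t) * ∫ s in (0 : ℝ)..t, Real.exp ((c - δ) * s) := by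
      rw [← intervalIntegral.integral_const_mul]
      congr 1; ext s; rw [← Real.exp_add]; congr 1; ring
    rw [e3, integral_exp_mul _ _ hcd.ne']
    have e4 : Real.exp (-(c - δ) * t) * Real.exp ((c - δ) * t) = 1 := by
      rw [← Real.exp_add, show -(c - δ) * t + (c - δ) * t = 0 by ring, Real.exp_zero]
    have e5 : Real.exp (-(c - δ) * t) * ((Real.exp ((c - δ) * t) - 1) / (c - δ))
        = (1 - Real.exp (-(c - δ) * t)) / (c - δ) := by
      rw [mul_div_assoc', mul_sub, e4, mul_one]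
    rw [e5, div_eq_mul_inv, div_eq_mul_inv]
    have : (1 - Real.exp (-(c - δ) * t)) * (c - δ)⁻¹ ≤ (c - δ)⁻¹ := by
      have h1 : 0 < (c - δ)⁻¹ := by positivity
      have h2 := Real.exp_pos (-(c - δ) * t)
      nlinarith
    gcongr
  refine le_trans (integral_mono_on ht ?_ ?_ hle) hint
  · exact (by fun_prop : Continuous _).intervalIntegrable _ _
  · exact (by fun_prop : Continuous _).intervalIntegrable _ _

/-- Gronwall with damping. -/
theorem gronwall_damped {A : ℝ} (hA : 0 ≤ A) {y : ℝ → ℝ} (hy : ContinuousOn y (Icc 0 A))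
    {c δ β p0 p q : ℝ} (hδ : 0 ≤ δ) (hcδ : δ + 1 ≤ c) (hβ0 : 0 ≤ β) (hβ : 2 * β ≤ c - δ)
    (hp0 : 0 ≤ p0) (hp : 0 ≤ p) (hq : 0 < q)
    (h : ∀ t ∈ Icc (0 : ℝ) A, y t ≤ Real.exp (-c * t) * p0
      + ∫ s in (0 : ℝ)..t, Real.exp (-c * (t - s)) * (β * y s + (p * Real.exp (-δ * s) + q))) :
    ∀ t ∈ Icc (0 : ℝ) A, y t ≤ 2 * ((p0 + p) * Real.exp (-δ * t) + q) := by
  refine conv_bound hA hy (φ := fun t => (p0 + p) * Real.exp (-δ * t) + q) (by fun_prop)
    (fun t _ => by positivity) (k := fun t s => Real.exp (-c * (t - s)) * β)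
    (fun _ _ _ _ => by positivity) (fun t _ => by fun_prop) ?_ ?_
  · intro t ht
    have e1 : ∫ s in (0 : ℝ)..t, Real.exp (-c * (t - s)) * β * ((p0 + p) * Real.exp (-δ * s) + q)
        = β * ∫ s in (0 : ℝ)..t, Real.exp (-c * (t - s)) * ((p0 + p) * Real.exp (-δ * s) + q) := by
      rw [← intervalIntegral.integral_const_mul]; congr 1; ext s; ring
    rw [e1]
    have e2 := conv_exp (c := c) (δ := δ) (p := p0 + p) (q := q) (t := t) (by positivity) hq.le hδ
      (by linarith) ht.1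
    have e3 : 0 < (p0 + p) * Real.exp (-δ * t) + q := by positivity
    have e4 : β * (((p0 + p) * Real.exp (-δ * t) + q) / (c - δ))
        ≤ ((p0 + p) * Real.exp (-δ * t) + q) / 2 := by
      have hcd : 0 < c - δ := by linarith
      rw [mul_div_assoc', div_le_div_iff₀ hcd (by norm_num)]
      nlinarith
    calc _ ≤ β * (((p0 + p) * Real.exp (-δ * t) + q) / (c - δ)) := by gcongr
      _ ≤ _ := e4
  · intro t ht
    have h1 := h t ht
    have hsub : Icc (0 : ℝ) t ⊆ Icc 0 A := Icc_subset_Icc le_rfl ht.2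
    have hyi : ContinuousOn y (uIcc 0 t) := by
      rw [uIcc_of_le ht.1]; exact hy.mono hsub
    have e1 : ∫ s in (0 : ℝ)..t, Real.exp (-c * (t - s)) * (β * y s + (p * Real.exp (-δ * s) + q))
        = (∫ s in (0 : ℝ)..t, Real.exp (-c * (t - s)) * β * y s)
          + ∫ s in (0 : ℝ)..t, Real.exp (-c * (t - s)) * (p * Real.exp (-δ * s) + q) := by
      rw [← intervalIntegral.integral_add]
      · congr 1; ext s; ring
      · apply ContinuousOn.intervalIntegrable
        exact (by fun_prop : ContinuousOn (fun s => Real.exp (-c * (t - s)) * β) _).mul hyi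
      · exact (by fun_prop : Continuous _).intervalIntegrable _ _
    have e2 := conv_exp (c := c) (δ := δ) (p := p) (q := q) (t := t) hp hq.le hδ
      (by linarith) ht.1
    have e3 : (p * Real.exp (-δ * t) + q) / (c - δ) ≤ p * Real.exp (-δ * t) + q := by
      apply div_le_self (by positivity); linarith
    have e4 : Real.exp (-c * t) * p0 ≤ p0 * Real.exp (-δ * t) := by
      rw [mul_comm]
      have : Real.exp (-c * t) ≤ Real.exp (-δ * t) := by
        apply Real.exp_le_exp.2; nlinarith [ht.1]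
      gcongr
    rw [e1] at h1
    nlinarith

end Vale.Agent.P139.H605
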